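import Vale.Agent.P257.H702.Poly
import Vale.Agent.P257.H80.HazVV
import Mathlib.RingTheory.Localization.Away.Basic

/-!
# P251Z: the ring `ℤ_(p)[v_1, …, v_n, v_n⁻¹]` and Hazewinkel's law over it
-/

open MvPolynomial

namespace Vale.Agent.P251Z

open Vale.Agent.P217 Vale.Agent.P251.F Vale.Agent.P257.H702 Vale.Agent.P257.H80

/-- `B = ℤ_(p)[v_1, …, v_{k+1}, v_{k+1}⁻¹]` along `Φ`, where `v_{i+1} = X i` -/
structure JWRing (p k : ℕ) {B : Type*} [CommRing B] (Φ : MvPolynomial ℕ ℤ →+* B) : Prop where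
  unit : ∀ m : ℤ, ¬ (p : ℤ) ∣ m → IsUnit (m : B)
  inv : IsUnit (Φ (X k))
  gen : ∀ y : B, ∃ (m : ℤ) (j : ℕ) (x : MvPolynomial ℕ ℤ), ¬ (p : ℤ) ∣ m ∧
    (m : B) * Φ (X k) ^ j * y = Φ x
  ker : ∀ x, Φ x = 0 → x ∈ Ideal.span (vseq p '' {i | k + 1 < i})
  zero : ∀ i, k < i → Φ (X i) = 0

/-- the ideal `(p, X 0, …, X (j-2))` -/
noncomputable abbrev vI (p j : ℕ) : Ideal (MvPolynomial ℕ ℤ) :=
  Ideal.span (Set.range fun i : Fin j => vseq p i)

variable {p k : ℕ} [hp : Fact p.Prime] {B : Type*} [CommRing B] {Φ : MvPolynomial ℕ ℤ →+* B}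

omit hp in
theorem map_C_int (Φ : MvPolynomial ℕ ℤ →+* B) (m : ℤ) : Φ (C m) = (m : B) :=
  eq_intCast (Φ.comp C) m

theorem Ih_haz_eq (Φ : MvPolynomial ℕ ℤ →+* B) (j : ℕ) :
    Ih p j ((haz p).map Φ) = (vI p j).map Φ := by
  rcases j with _ | j
  · have h0 : (Set.range fun i : Fin 0 => vseq p i) = ∅ := Set.range_eq_empty _
    rw [vI, h0, Ideal.span_empty, Ideal.map_bot, Ih, Ideal.span_eq_bot]
    rintro x ⟨i, hi, -⟩
    exact absurd hi (Nat.not_lt_zero i)
  · rw [Ih_haz, HI, vI, Ideal.map_span]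
    congr 1
    ext x
    constructor
    · rintro (rfl | ⟨i, hi, rfl⟩)
      · exact ⟨_, ⟨⟨0, Nat.succ_pos j⟩, rfl⟩, by simp [vseq]⟩
      · exact ⟨_, ⟨⟨i + 1, Nat.succ_lt_succ hi⟩, rfl⟩, rfl⟩
    · rintro ⟨_, ⟨⟨i, hi⟩, rfl⟩, rfl⟩
      rcases i with _ | i
      · left
        simp [vseq]
      · right
        exact ⟨i, Nat.lt_of_succ_lt_succ hi, rfl⟩

theorem vv_haz_sub (Φ : MvPolynomial ℕ ℤ →+* B) (j : ℕ) :
    vv p j ((haz p).map Φ) - Φ (vseq p j) ∈ Ih p j ((haz p).map Φ) := by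
  rcases j with _ | j
  · rw [vv_zero]
    have : Φ (vseq p 0) = (p : B) := by simp [vseq]
    rw [this, sub_self]
    exact zero_mem _
  · rw [Ih_haz]
    exact vv_haz_sub_mem p Φ j

/-- the substitution which kills the `X i`, `i > k` -/
noncomputable def trunc (k : ℕ) : MvPolynomial ℕ ℤ →+* MvPolynomial ℕ ℤ :=
  eval₂Hom C fun i => if i ≤ k then X i else 0

omit hp in
theorem trunc_vseq {i : ℕ} (hi : i ≤ k + 1) : trunc k (vseq p i) = vseq p i := by
  rcases i with _ | i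
  · rw [vseq, trunc, eval₂Hom_C]
  · rw [vseq, trunc, eval₂Hom_X', if_pos (by omega)]

omit hp in
theorem trunc_ker {x : MvPolynomial ℕ ℤ} (hx : x ∈ Ideal.span (vseq p '' {i | k + 1 < i})) :
    trunc k x = 0 := by
  have h1 : Ideal.span (vseq p '' {i | k + 1 < i}) ≤ RingHom.ker (trunc k) := by
    rw [Ideal.span_le]
    rintro _ ⟨i, hi, rfl⟩
    have hi' : k + 1 < i := hi
    obtain ⟨i, rfl⟩ : ∃ l, i = l + 1 := ⟨i - 1, by omega⟩
    change trunc k (vseq p (i + 1)) = 0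
    rw [vseq, trunc, eval₂Hom_X', if_neg (by omega)]
  exact h1 hx

omit hp in
theorem trunc_mem {j : ℕ} (hj : j ≤ k + 2) {x : MvPolynomial ℕ ℤ} (hx : x ∈ vI p j) :
    trunc k x ∈ vI p j := by
  have h1 : vI p j ≤ (vI p j).comap (trunc k) := by
    rw [Ideal.span_le]
    rintro _ ⟨i, rfl⟩
    change trunc k (vseq p i) ∈ vI p j
    rw [trunc_vseq (by omega)]
    exact Ideal.subset_span ⟨i, rfl⟩
  exact h1 hx

namespace JWRing

variable (H : JWRing p k Φ)

omit hp in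
include H in
theorem map_trunc (x : MvPolynomial ℕ ℤ) : Φ (trunc k x) = Φ x := by
  have h1 : Φ.comp (trunc k) = Φ := by
    apply MvPolynomial.ringHom_ext
    · intro r
      rw [RingHom.comp_apply, trunc, eval₂Hom_C]
    · intro i
      rw [RingHom.comp_apply, trunc, eval₂Hom_X']
      by_cases hi : i ≤ k
      · rw [if_pos hi]
      · rw [if_neg hi, map_zero, H.zero i (by omega)]
  exact congrFun (congrArg DFunLike.coe h1) x

include H in
/-- clearing the denominators -/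
theorem clear (I : Ideal (MvPolynomial ℕ ℤ)) {y : B} (hy : y ∈ I.map Φ) :
    ∃ (m : ℤ) (j : ℕ) (w : MvPolynomial ℕ ℤ), ¬ (p : ℤ) ∣ m ∧ w ∈ I ∧
      (m : B) * Φ (X k) ^ j * y = Φ w := by
  have hpp : Prime (p : ℤ) := Nat.prime_iff_prime_int.mp hp.out
  unfold Ideal.map at hy
  induction hy using Submodule.span_induction with
  | mem a ha =>
    obtain ⟨w, hw, rfl⟩ := ha
    exact ⟨1, 0, w, fun h => hpp.not_isUnit (isUnit_of_dvd_one h), hw, by simp⟩
  | zero => exact ⟨1, 0, 0, fun h => hpp.not_isUnit (isUnit_of_dvd_one h), zero_mem _, by simp⟩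
  | add a b _ _ ha hb =>
    obtain ⟨m, j, w, hm, hw, ha⟩ := ha
    obtain ⟨m', j', w', hm', hw', hb⟩ := hb
    refine ⟨m * m', j + j', C m' * X k ^ j' * w + C m * X k ^ j * w',
      fun h => (hpp.dvd_or_dvd h).elim hm hm',
      add_mem (Ideal.mul_mem_left _ _ hw) (Ideal.mul_mem_left _ _ hw'), ?_⟩
    rw [map_add, map_mul, map_mul, map_mul, map_mul, map_pow, map_pow, map_C_int, map_C_int,
      ← ha, ← hb]
    push_cast
    ring
  | smul r b _ hb =>
    obtain ⟨m, j, w, hm, hw, hb⟩ := hb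
    obtain ⟨m', j', x, hm', hx⟩ := H.gen r
    refine ⟨m * m', j + j', x * w, fun h => (hpp.dvd_or_dvd h).elim hm hm',
      Ideal.mul_mem_left _ _ hw, ?_⟩
    rw [map_mul, ← hx, ← hb, smul_eq_mul]
    push_cast
    ring

include H in
/-- `p, v_1, …, v_k` is a regular sequence -/
theorem reg {j : ℕ} (hj : j < k + 1) (y : B)
    (hy : vv p j ((haz p).map Φ) * y ∈ Ih p j ((haz p).map Φ)) : y ∈ Ih p j ((haz p).map Φ) := by
  have h1 : Φ (vseq p j) * y ∈ Ih p j ((haz p).map Φ) := by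
    have h2 := sub_mem hy (Ideal.mul_mem_right y _ (vv_haz_sub (p := p) Φ j))
    have h3 : vv p j ((haz p).map Φ) * y - (vv p j ((haz p).map Φ) - Φ (vseq p j)) * y =
        Φ (vseq p j) * y := by ring
    rwa [h3] at h2
  rw [Ih_haz_eq] at h1 ⊢
  obtain ⟨m, a, w, hm, hw, h2⟩ := H.clear _ h1
  obtain ⟨m', a', x, hm', hx⟩ := H.gen y
  have h3 : Φ (C m * X k ^ a * x * vseq p j - C m' * X k ^ a' * w) = 0 := by
    rw [map_sub, map_mul, map_mul, map_mul, map_mul, map_mul, map_pow, map_pow, map_C_int,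
      map_C_int, ← hx, ← h2]
    ring
  have h4 := trunc_ker (H.ker _ h3)
  rw [map_sub, map_mul, trunc_vseq (by omega), sub_eq_zero] at h4
  have h5 : trunc k (C m * X k ^ a * x) ∈ vI p j := by
    refine reg_vseq hp.out j _ ?_
    rw [h4]
    exact trunc_mem (by omega) (Ideal.mul_mem_left _ _ hw)
  have h6 := Ideal.mem_map_of_mem Φ h5
  rw [H.map_trunc, map_mul, map_mul, map_pow, map_C_int, ← hx, ← mul_assoc] at h6
  exact (Ideal.unit_mul_mem_iff_mem _ (((H.unit m hm).mul (H.inv.pow a)).mul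
    ((H.unit m' hm').mul (H.inv.pow a')))).1 h6

/-- the substitution `X k ↦ X`, `X i ↦ 0` for `i ≠ k`, modulo `p` -/
noncomputable def sp (p k : ℕ) : MvPolynomial ℕ ℤ →+* Polynomial (ZMod p) :=
  eval₂Hom (Int.castRingHom _) fun i => if i = k then Polynomial.X else 0

theorem sp_X (i : ℕ) : sp p k (X i) = if i = k then Polynomial.X else 0 := by
  rw [sp, eval₂Hom_X']

theorem sp_mem {x : MvPolynomial ℕ ℤ} (hx : x ∈ vI p (k + 1)) : sp p k x = 0 := by
  have h1 : vI p (k + 1) ≤ RingHom.ker (sp p k) := by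
    rw [Ideal.span_le]
    rintro _ ⟨⟨i, hi⟩, rfl⟩
    change sp p k (vseq p i) = 0
    rcases i with _ | i
    · rw [vseq, map_C_int, Int.cast_natCast, ← map_natCast (Polynomial.C (R := ZMod p)),
        CharP.cast_eq_zero, map_zero]
    · rw [vseq, sp_X, if_neg (by omega)]
  exact h1 hx

theorem sp_ker {x : MvPolynomial ℕ ℤ} (hx : x ∈ Ideal.span (vseq p '' {i | k + 1 < i})) :
    sp p k x = 0 := by
  have h1 : Ideal.span (vseq p '' {i | k + 1 < i}) ≤ RingHom.ker (sp p k) := by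
    rw [Ideal.span_le]
    rintro _ ⟨i, hi, rfl⟩
    have hi' : k + 1 < i := hi
    obtain ⟨i, rfl⟩ : ∃ l, i = l + 1 := ⟨i - 1, by omega⟩
    change sp p k (vseq p (i + 1)) = 0
    rw [vseq, sp_X, if_neg (by omega)]
  exact h1 hx

theorem sp_surj (f : Polynomial (ZMod p)) : ∃ x, sp p k x = f := by
  induction f using Polynomial.induction_on' with
  | add f g hf hg =>
    obtain ⟨x, rfl⟩ := hf
    obtain ⟨y, rfl⟩ := hg
    exact ⟨x + y, map_add _ _ _⟩
  | monomial n c =>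
    refine ⟨C (c.val : ℤ) * X k ^ n, ?_⟩
    rw [map_mul, map_pow, sp_X, if_pos rfl, map_C_int, ← Polynomial.C_mul_X_pow_eq_monomial,
      Int.cast_natCast, ← map_natCast (Polynomial.C (R := ZMod p)), ZMod.natCast_zmod_val]

theorem sp_C_ne {m : ℤ} (hm : ¬ (p : ℤ) ∣ m) : ((m : ℤ) : Polynomial (ZMod p)) ≠ 0 := by
  rw [← map_intCast (Polynomial.C (R := ZMod p)), Ne, Polynomial.C_eq_zero,
    ZMod.intCast_zmod_eq_zero_iff_dvd]
  exact hm

include H in
/-- `Φ x ∈ I_{k+1}` if and only if `x` is killed by the substitution -/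
theorem mem_iff (x : MvPolynomial ℕ ℤ) :
    Φ x ∈ Ih p (k + 1) ((haz p).map Φ) ↔ sp p k x = 0 := by
  rw [Ih_haz_eq]
  constructor
  · intro hx
    obtain ⟨m, a, w, hm, hw, h2⟩ := H.clear _ hx
    have h3 : Φ (C m * X k ^ a * x - w) = 0 := by
      rw [map_sub, map_mul, map_mul, map_pow, map_C_int, h2, sub_self]
    have h4 := sp_ker (H.ker _ h3)
    rw [map_sub, sp_mem hw, sub_zero, map_mul, map_mul, map_pow, map_C_int, sp_X, if_pos rfl]
      at h4
    rcases mul_eq_zero.1 h4 with h5 | h5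
    · exact absurd h5 (mul_ne_zero (sp_C_ne hm) (pow_ne_zero _ Polynomial.X_ne_zero))
    · exact h5
  · intro hx
    set q := Ideal.Quotient.mk ((vI p (k + 1)).map Φ) with hq
    have hv : ∀ i < k + 1, q (Φ (vseq p i)) = 0 := fun i hi => by
      rw [hq, Ideal.Quotient.eq_zero_iff_mem]
      exact Ideal.mem_map_of_mem Φ (Ideal.subset_span ⟨⟨i, hi⟩, rfl⟩)
    have hp0 : (p : B ⧸ (vI p (k + 1)).map Φ) = 0 := by
      have h1 := hv 0 (Nat.succ_pos k)
      rwa [vseq, map_C_int, Int.cast_natCast, map_natCast] at h1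
    rw [← Ideal.Quotient.eq_zero_iff_mem, ← hq]
    rcases subsingleton_or_nontrivial (B ⧸ (vI p (k + 1)).map Φ) with h1 | h1
    · exact Subsingleton.elim _ _
    have hc : CharP (B ⧸ (vI p (k + 1)).map Φ) p := (CharP.charP_iff_prime_eq_zero hp.out).2 hp0
    have h2 : q.comp Φ = (Polynomial.eval₂RingHom (ZMod.castHom (dvd_refl p) _)
        (q (Φ (X k)))).comp (sp p k) := by
      apply MvPolynomial.ringHom_ext
      · intro r
        rw [map_C_int, map_C_int]
      · intro i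
        rw [RingHom.comp_apply, RingHom.comp_apply, sp_X]
        by_cases hi : i = k
        · rw [if_pos hi, hi, Polynomial.coe_eval₂RingHom, Polynomial.eval₂_X]
        · rw [if_neg hi, map_zero]
          rcases lt_or_gt_of_ne hi with h3 | h3
          · exact hv (i + 1) (by omega)
          · rw [H.zero i h3, map_zero]
    have h3 := congrFun (congrArg DFunLike.coe h2) x
    rw [RingHom.comp_apply, RingHom.comp_apply, hx, map_zero] at h3
    exact h3

include H in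
/-- `B / I_{k+1} = 𝔽_p[v, v⁻¹]` -/
theorem exists_alg : ∃ (_ : Algebra (Polynomial (ZMod p)) (B ⧸ Ih p (k + 1) ((haz p).map Φ))),
    IsLocalization.Away (Polynomial.X : Polynomial (ZMod p))
      (B ⧸ Ih p (k + 1) ((haz p).map Φ)) ∧
    Ideal.Quotient.mk (Ih p (k + 1) ((haz p).map Φ)) (vv p (k + 1) ((haz p).map Φ)) =
      algebraMap (Polynomial (ZMod p)) (B ⧸ Ih p (k + 1) ((haz p).map Φ)) Polynomial.X := by
  set q := Ideal.Quotient.mk (Ih p (k + 1) ((haz p).map Φ)) with hq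
  have hs : Function.Surjective (sp p k) := sp_surj
  let χ : Polynomial (ZMod p) →+* B ⧸ Ih p (k + 1) ((haz p).map Φ) :=
    (sp p k).liftOfSurjective hs ⟨q.comp Φ, fun x hx => by
      rw [RingHom.mem_ker, RingHom.comp_apply, hq, Ideal.Quotient.eq_zero_iff_mem, H.mem_iff]
      exact hx⟩
  have hχ : ∀ x, χ (sp p k x) = q (Φ x) := fun x =>
    (sp p k).liftOfRightInverse_comp_apply _ _ _ x
  have hX : χ Polynomial.X = q (Φ (X k)) := by
    rw [← hχ, sp_X, if_pos rfl]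
  let this : Algebra (Polynomial (ZMod p)) (B ⧸ Ih p (k + 1) ((haz p).map Φ)) := χ.toAlgebra
  have ha : algebraMap (Polynomial (ZMod p)) (B ⧸ Ih p (k + 1) ((haz p).map Φ)) = χ := rfl
  refine ⟨this, { map_units := ?_, surj := ?_, exists_of_eq := ?_ }, ?_⟩
  · rintro ⟨_, j, rfl⟩
    change IsUnit (χ (Polynomial.X ^ j))
    rw [map_pow, hX]
    exact (H.inv.map q).pow j
  · intro z
    obtain ⟨y, rfl⟩ := Ideal.Quotient.mk_surjective z
    obtain ⟨m, j, x, hm, hx⟩ := H.gen y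
    have hm' : (m : ZMod p) ≠ 0 := by
      rw [Ne, ZMod.intCast_zmod_eq_zero_iff_dvd]
      exact hm
    refine ⟨(Polynomial.C (m : ZMod p)⁻¹ * sp p k x, ⟨Polynomial.X ^ j, j, rfl⟩), ?_⟩
    change q y * χ (Polynomial.X ^ j) = χ (Polynomial.C (m : ZMod p)⁻¹ * sp p k x)
    have h1 : χ (Polynomial.C (m : ZMod p)⁻¹) * q (m : B) = 1 := by
      rw [map_intCast, ← map_intCast χ, ← map_intCast (Polynomial.C (R := ZMod p)), ← map_mul,
        ← map_mul, inv_mul_cancel₀ hm', map_one, map_one]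
    rw [map_mul, hχ, ← hx, map_pow, hX, map_mul, map_mul, map_pow]
    linear_combination (-(q y * q (Φ (X k)) ^ j)) * h1
  · intro f g hfg
    refine ⟨1, ?_⟩
    obtain ⟨x, rfl⟩ := hs f
    obtain ⟨y, rfl⟩ := hs g
    rw [ha, hχ, hχ, ← sub_eq_zero, ← map_sub, ← map_sub, hq, Ideal.Quotient.eq_zero_iff_mem,
      H.mem_iff, map_sub, sub_eq_zero] at hfg
    rw [hfg]
  · rw [ha, hX, ← sub_eq_zero, ← map_sub, hq, Ideal.Quotient.eq_zero_iff_mem]
    exact vv_haz_sub Φ (k + 1)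

end JWRing

end Vale.Agent.P251Z
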