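import Vale.Agent.P257.H80.StBP

/-!
# P251Z, statement layer: Johnson-Wilson spectra

* `IsJW p n o φ` : `π_* E = ℤ_(p)[v_1, …, v_n, v_n⁻¹]` on the Hazewinkel generators;
* `NoRetractionJW S p n` : the map `L_{E(n-1)} S_p ⟶ L_{E(n-1)} L_{K(n)} S_p` has no retraction.
-/

open CategoryTheory MonoidalCategory

noncomputable section

namespace Vale.Agent.P251Z

open Vale.Agent.P251.St Vale.Agent.P251.St.SHCat Vale.Agent.P257.St

variable {T : SHCat} {S : Susp T}

/-- `E`, with the `p`-typical complex orientation `o` and the homomorphism of graded rings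
`φ : ℤ[v_1, v_2, …] → π_* E` which classifies its formal group law, is the Johnson-Wilson spectrum
`E(n)` at `p`: `E` is `p`-local and `π_* E = ℤ_(p)[v_1, …, v_n, v_n⁻¹]`. That is: the odd homotopy
groups vanish; `v_n` is invertible; every `y ∈ π_{2k} E` is a fraction `x / (m v_n ^ j)`, where `m`
is an integer prime to `p` (for `k ≥ 0`; the case `k < 0` follows since `v_n` is invertible); and
the kernel of `φ` is the ideal `(v_{n+1}, v_{n+2}, …)`. -/
structure IsJW {E : RingSp T} (p n : ℕ) (o : Oriented S E) (φ : GHom S p E) : Prop where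
  typ : IsPTyp p o φ
  odd : ∀ (k : ℤ) (f : Hom (sphere T k) E.obj), Odd k → f = 0
  inv : ∃ w : Hom T.one (ten E.obj (S.obj (Cn (p ^ n - 1)))),
    comp w (comp (tenL E.obj (hazV φ n)) E.mul) = E.unit
  gen : ∀ (k : ℕ) (y : Hom (S.obj (Cn k)) E.obj), ∃ (m : ℤ) (j d : ℕ) (u : VPoly p d)
    (x : VPoly p (d + k)), ¬ (p : ℤ) ∣ m ∧ (u : MvPolynomial ℕ ℤ) = vEl p n ^ j ∧
      IsProd (φ.val u) (zmul m y) (φ.val x)
  ker : ∀ (k : ℕ) (x : VPoly p k), φ.val x = 0 ↔
    (x : MvPolynomial ℕ ℤ) ∈ Ideal.span (vEl p '' {i | n < i})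

/-- The canonical map `L_{n-1} S_p ⟶ L_{n-1} L_{K(n)} S_p` has no retraction. Here `K` is a Morava
`K`-theory of height `n`, `E` is the Johnson-Wilson spectrum `E(n-1)`, `M` is the mod `p` Moore
spectrum, `c : S ⟶ S_p` is the `p`-completion of the sphere, `l : S_p ⟶ X` is the
`E`-localization of `S_p`, `z : S_p ⟶ Z` the `K`-localization of `S_p`, `y : Z ⟶ Y` the
`E`-localization of `Z`, and `i : X ⟶ Y` the induced map. -/
def NoRetractionJW (S : Susp T) (p n : ℕ) : Prop :=
  ∀ (K E : RingSp T) (o : Oriented S E) (φ : GHom S p E) (M : T.C) (a : Hom T.one M)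
    (b : Hom M (sus T.one)) (Sp X Z Y : T.C) (c : Hom T.one Sp) (l : Hom Sp X) (z : Hom Sp Z)
    (y : Hom Z Y) (i : Hom X Y),
    IsMorava S K p n → IsJW p (n - 1) o φ → Dist (zmul p (ident T.one)) a b →
    IsLoc M c → IsLoc E.obj l → IsLoc K.obj z → IsLoc E.obj y → comp l i = comp z y →
    ¬ ∃ r : Hom Y X, comp i r = ident X

end Vale.Agent.P251Z
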