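import Vale.Agent.P251.Z.GoodAlg

/-!
# P251Z: the bookkeeping of the Koszul comparison, modulo `v_0, …, v_{h-1}` on both sides
-/

namespace Vale.Agent.P251Z

open Vale.Agent.P251.Z

variable {E E' E₂ E₂' : Type*} [AddCommGroup E] [AddCommGroup E'] [AddCommGroup E₂]
  [AddCommGroup E₂'] {I J : Type*}

/-- the map induced on the quotients by `v_0, …, v_{h-1}` -/
def qm {v : ℕ → E →+ E} {v₂ : ℕ → E₂ →+ E₂} (h : ℕ) (f : E →+ E₂)
    (hf : ∀ j x, f (v j x) = v₂ j (f x)) : (E ⧸ VI v h) →+ (E₂ ⧸ VI v₂ h) :=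
  QuotientAddGroup.map _ _ f (fun _ hx => map_mem_VI f hf hx)

theorem qm_mk {v : ℕ → E →+ E} {v₂ : ℕ → E₂ →+ E₂} (h : ℕ) (f : E →+ E₂)
    (hf : ∀ j x, f (v j x) = v₂ j (f x)) (x : E) :
    qm h f hf (QuotientAddGroup.mk' (VI v h) x) = QuotientAddGroup.mk' (VI v₂ h) (f x) := rfl

theorem mk_eq_zero {v : ℕ → E →+ E} {h : ℕ} {x : E} :
    QuotientAddGroup.mk' (VI v h) x = 0 ↔ x ∈ VI v h := QuotientAddGroup.eq_zero_iff x

theorem lift_comm (f : J → E →+ E₂) {a : E →+ E} {b : E₂ →+ E₂}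
    (hf : ∀ j x, f j (a x) = b (f j x)) (x : J →₀ E) :
    b (Finsupp.liftAddHom f x) = Finsupp.liftAddHom f (x.mapRange a (map_zero _)) := by
  induction x using Finsupp.induction_linear with
  | zero => simp
  | add x y hx hy =>
    rw [map_add, map_add, hx, hy, Finsupp.mapRange_add (fun a' b' => map_add _ a' b'), map_add]
  | single a x => simp [hf]

theorem mem_VI_sum {v : ℕ → E →+ E} {v₂ : ℕ → E₂ →+ E₂} (f : J → E →+ E₂)
    (hf : Function.Bijective (Finsupp.liftAddHom f))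
    (hfv : ∀ a k x, f a (v k x) = v₂ k (f a x)) (k : ℕ) (x : J →₀ E)
    (hx : Finsupp.liftAddHom f x ∈ VI v₂ k) (a : J) : x a ∈ VI v k := by
  classical
  obtain ⟨y, hy⟩ := hx
  choose z hz using fun j => hf.2 (y j)
  refine ⟨fun j => z j a, ?_⟩
  have h1 : Finsupp.liftAddHom f x = Finsupp.liftAddHom f
      (∑ j ∈ Finset.range k, (z j).mapRange (v j) (map_zero _)) := by
    rw [hy, map_sum]
    refine Finset.sum_congr rfl fun j _ => ?_
    rw [← lift_comm f (fun a x => hfv a j x), hz]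
  rw [hf.1 h1, Finsupp.finsetSum_apply]
  rfl

theorem qm_sum_bij {v : ℕ → E →+ E} {v₂ : ℕ → E₂ →+ E₂} (h : ℕ) (f : J → E →+ E₂)
    (hf : Function.Bijective (Finsupp.liftAddHom f))
    (hfv : ∀ a k x, f a (v k x) = v₂ k (f a x)) :
    Function.Bijective (Finsupp.liftAddHom fun a => qm h (f a) (hfv a)) := by
  classical
  have key : ∀ x : J →₀ E, Finsupp.liftAddHom (fun a => qm h (f a) (hfv a))
      (x.mapRange (QuotientAddGroup.mk' (VI v h)) (map_zero _)) =
      QuotientAddGroup.mk' (VI v₂ h) (Finsupp.liftAddHom f x) := by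
    intro x
    induction x using Finsupp.induction_linear with
    | zero => simp
    | add x y hx hy =>
      rw [Finsupp.mapRange_add (fun a' b' => map_add _ a' b'), map_add, hx, hy, map_add, map_add]
    | single a x =>
      rw [Finsupp.mapRange_single, Finsupp.liftAddHom_apply_single,
        Finsupp.liftAddHom_apply_single, qm_mk]
  have hs : ∀ y : J →₀ (E ⧸ VI v h), ∃ x : J →₀ E,
      x.mapRange (QuotientAddGroup.mk' (VI v h)) (map_zero _) = y :=
    Finsupp.mapRange_surjective _ (map_zero _) (QuotientAddGroup.mk'_surjective _)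
  constructor
  · rw [injective_iff_map_eq_zero]
    intro y hy
    obtain ⟨x, rfl⟩ := hs y
    rw [key, mk_eq_zero] at hy
    ext a
    rw [Finsupp.mapRange_apply, Finsupp.zero_apply, mk_eq_zero]
    exact mem_VI_sum f hf hfv h x hy a
  · intro y
    obtain ⟨y, rfl⟩ := QuotientAddGroup.mk'_surjective _ y
    obtain ⟨x, rfl⟩ := hf.2 y
    exact ⟨_, key x⟩

theorem qm_quot_bij {v : ℕ → E →+ E} {v₂ : ℕ → E₂ →+ E₂} (h : ℕ) (π : E →+ E₂)
    (hπ : Function.Surjective π) (hπv : ∀ k x, π (v k x) = v₂ k (π x))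
    (hker : ∀ x, π x = 0 → x ∈ VI v h) : Function.Bijective (qm h π hπv) := by
  constructor
  · rw [injective_iff_map_eq_zero]
    intro y hy
    obtain ⟨x, rfl⟩ := QuotientAddGroup.mk'_surjective _ y
    rw [qm_mk, mk_eq_zero] at hy
    rw [mk_eq_zero]
    obtain ⟨y, hy⟩ := hy
    choose z hz using fun j => hπ (y j)
    have h1 : π (x - ∑ j ∈ Finset.range h, v j (z j)) = 0 := by
      rw [map_sub, hy, map_sum, sub_eq_zero]
      exact Finset.sum_congr rfl fun j _ => by rw [hπv, hz]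
    have h2 := add_mem (hker _ h1) (show ∑ j ∈ Finset.range h, v j (z j) ∈ VI v h from ⟨z, rfl⟩)
    rwa [sub_add_cancel] at h2
  · intro y
    obtain ⟨y, rfl⟩ := QuotientAddGroup.mk'_surjective _ y
    obtain ⟨x, rfl⟩ := hπ y
    exact ⟨_, qm_mk h π hπv x⟩

theorem bij_of_sum (f : J → E →+ E₂) (hf : Function.Bijective (Finsupp.liftAddHom f))
    {a : E →+ E} {b : E₂ →+ E₂} (hab : ∀ j x, f j (a x) = b (f j x))
    (ha : Function.Bijective a) : Function.Bijective b := by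
  have h1 : Function.Bijective (fun x : J →₀ E => x.mapRange a (map_zero _)) :=
    ⟨Finsupp.mapRange_injective _ (map_zero _) ha.1,
      Finsupp.mapRange_surjective _ (map_zero _) ha.2⟩
  have h2 : b ∘ Finsupp.liftAddHom f =
      Finsupp.liftAddHom f ∘ (fun x : J →₀ E => x.mapRange a (map_zero _)) :=
    funext fun x => lift_comm f hab x
  have h3 : Function.Bijective (b ∘ Finsupp.liftAddHom f) := h2 ▸ hf.comp h1
  exact (Function.Bijective.of_comp_iff b hf).1 h3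

theorem bij_of_conj (f : E →+ E₂) (hf : Function.Bijective f)
    {a : E →+ E} {b : E₂ →+ E₂} (hab : ∀ x, f (a x) = b (f x))
    (ha : Function.Bijective a) : Function.Bijective b := by
  have h2 : b ∘ f = f ∘ a := funext fun x => (hab x).symm
  have h3 : Function.Bijective (b ∘ f) := h2 ▸ hf.comp ha
  exact (Function.Bijective.of_comp_iff b hf).1 h3

/-- The family `ψ e : E ⟶ E'` becomes a direct sum decomposition after killing `v 0, …, v (h-1)`
on both sides and inverting `v h` on `E`; and `v h` is invertible on the quotient of `E'`. -/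
structure GoodQ (h : ℕ) (v : ℕ → E →+ E) (v' : ℕ → E' →+ E') (ψ : I → E →+ E') : Prop where
  comm : ∀ j x, v' h (v' j x) = v' j (v' h x)
  map : GoodMap h v (qm h (v' h) comm) (fun e => (QuotientAddGroup.mk' (VI v' h)).comp (ψ e))
  unit : Function.Bijective (qm h (v' h) comm)

theorem GoodQ.sum {h : ℕ} {v : ℕ → E →+ E} {v' : ℕ → E' →+ E'} {ψ : I → E →+ E'}
    (H : GoodQ h v v' ψ) (hc : ∀ j k x, v j (v k x) = v k (v j x))
    {v₂ : ℕ → E₂ →+ E₂} {v₂' : ℕ → E₂' →+ E₂'} {ψ₂ : I → E₂ →+ E₂'}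
    (hc₂ : ∀ j x, v₂' h (v₂' j x) = v₂' j (v₂' h x))
    (f : J → E →+ E₂) (hf : Function.Bijective (Finsupp.liftAddHom f))
    (g : J → E' →+ E₂') (hg : Function.Bijective (Finsupp.liftAddHom g))
    (hfv : ∀ a k x, f a (v k x) = v₂ k (f a x)) (hgv : ∀ a k x, g a (v' k x) = v₂' k (g a x))
    (hψ : ∀ a e x, ψ₂ e (f a x) = g a (ψ e x)) : GoodQ h v₂ v₂' ψ₂ := by
  have h1 : ∀ a x, qm h (g a) (hgv a) (qm h (v' h) H.comm x) =
      qm h (v₂' h) hc₂ (qm h (g a) (hgv a) x) := by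
    intro a x
    obtain ⟨x, rfl⟩ := QuotientAddGroup.mk'_surjective _ x
    rw [qm_mk, qm_mk, qm_mk, qm_mk, hgv]
  refine ⟨hc₂, H.map.sum hc f hf (fun a => qm h (g a) (hgv a)) (qm_sum_bij h g hg hgv) hfv h1
    (fun a e x => ?_), bij_of_sum _ (qm_sum_bij h g hg hgv) h1 H.unit⟩
  rw [AddMonoidHom.comp_apply, AddMonoidHom.comp_apply, qm_mk, hψ]

theorem GoodQ.quot {h : ℕ} {v : ℕ → E →+ E} {v' : ℕ → E' →+ E'} {ψ : I → E →+ E'}
    (H : GoodQ h v v' ψ) {v₂ : ℕ → E₂ →+ E₂} {v₂' : ℕ → E₂' →+ E₂'} {ψ₂ : I → E₂ →+ E₂'}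
    (π : E →+ E₂) (hπ : Function.Surjective π) (hπv : ∀ k x, π (v k x) = v₂ k (π x))
    (g : E' →+ E₂') (hg : Function.Surjective g) (hgv : ∀ k x, g (v' k x) = v₂' k (g x))
    (hker : ∀ x, g x = 0 → x ∈ VI v' h)
    (hψ : ∀ e x, ψ₂ e (π x) = g (ψ e x)) : GoodQ h v₂ v₂' ψ₂ := by
  have hc₂ : ∀ j x, v₂' h (v₂' j x) = v₂' j (v₂' h x) := by
    intro j x
    obtain ⟨x, rfl⟩ := hg x
    rw [← hgv, ← hgv, ← hgv, ← hgv, H.comm]
  have h1 : ∀ x, qm h g hgv (qm h (v' h) H.comm x) = qm h (v₂' h) hc₂ (qm h g hgv x) := by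
    intro x
    obtain ⟨x, rfl⟩ := QuotientAddGroup.mk'_surjective _ x
    rw [qm_mk, qm_mk, qm_mk, qm_mk, hgv]
  refine ⟨hc₂, H.map.quot π hπ hπv (qm h g hgv) (qm_quot_bij h g hg hgv hker) h1
    (fun e x => ?_), bij_of_conj _ (qm_quot_bij h g hg hgv hker) h1 H.unit⟩
  rw [AddMonoidHom.comp_apply, AddMonoidHom.comp_apply, qm_mk, hψ]

/-- the last level -/
theorem GoodQ.last {h : ℕ} {v : ℕ → E →+ E} {v' : ℕ → E' →+ E'} {ψ : I → E →+ E'}
    (H : GoodQ h v v' ψ) (h0 : ∀ j < h, ∀ x, v' j x = 0) :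
    GoodMap h v (v' h) ψ ∧ Function.Bijective (v' h) := by
  have hV : ∀ x ∈ VI v' h, x = 0 := by
    rintro x ⟨y, rfl⟩
    exact Finset.sum_eq_zero fun j hj => h0 j (Finset.mem_range.1 hj) _
  have hb : Function.Bijective (QuotientAddGroup.mk' (VI v' h)) := by
    refine ⟨?_, QuotientAddGroup.mk'_surjective _⟩
    rw [injective_iff_map_eq_zero]
    intro x hx
    exact hV x (mk_eq_zero.1 hx)
  let e : E' ≃+ (E' ⧸ VI v' h) := AddEquiv.ofBijective _ hb
  have he : ∀ x, e.symm (QuotientAddGroup.mk' (VI v' h) x) = x := fun x => e.symm_apply_apply x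
  have h1 : ∀ x, e.symm.toAddMonoidHom (qm h (v' h) H.comm x) =
      v' h (e.symm.toAddMonoidHom x) := by
    intro x
    obtain ⟨x, rfl⟩ := QuotientAddGroup.mk'_surjective _ x
    rw [qm_mk]
    exact (he _).trans (congrArg (v' h) (he x).symm)
  refine ⟨H.map.quot (AddMonoidHom.id E) Function.surjective_id (fun _ _ => rfl)
    e.symm.toAddMonoidHom e.symm.bijective h1 (fun a x => (he _).symm),
    bij_of_conj e.symm.toAddMonoidHom e.symm.bijective h1 H.unit⟩

end Vale.Agent.P251Z
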