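import Vale.Agent.P251.Z.KRetract
import Vale.Agent.P251Z.QAlg

/-!
# P251Z: the Koszul comparison for an object `K` on which `v_0, …, v_{h-1}` is a regular sequence
-/

open CategoryTheory MonoidalCategory Limits Pretriangulated MonObj

set_option linter.unusedSectionVars false

universe v u

namespace Vale.Agent.P251Z

open Vale.Agent.P251.T Vale.Agent.P251.S Vale.Agent.P251.Z

variable {T : Type u} [Category.{v} T] [Preadditive T] [HasZeroObject T]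
    [HasShift T ℤ] [∀ n : ℤ, (shiftFunctor T n).Additive] [Pretriangulated T] [IsTriangulated T]
    [MonoidalCategory T] [SymmetricCategory T] [TensorTriangulated T] [MonoidalClosed T]
    [HasCoproducts.{0} T] [HasProducts.{0} T] [StableCat T]

theorem quot_comm {N X S Q : T} (q : S ⟶ Q) (g : N ⟶ N) (A : T) (x : A ⟶ X ⊗ (S ⊗ N)) :
    pc A (X ◁ (q ▷ N) ≫ (α_ X Q N).inv) (pc A (X ◁ (S ◁ g)) x) =
      pc A ((X ⊗ Q) ◁ g) (pc A (X ◁ (q ▷ N) ≫ (α_ X Q N).inv) x) := by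
  simp only [pc_apply, Category.assoc]
  congr 1
  rw [← whiskerLeft_comp_assoc, whisker_exchange, whiskerLeft_comp_assoc]
  simp

/-- the part of the Koszul step which concerns the regularity -/
theorem regStep {N X : T} {vN : ℕ → (N ⟶ N)} {i h : ℕ}
    (L : ∀ A : T, IsSphere A → GoodReg i h (fun k => pc A (X ◁ vN k)))
    (hih : i < h) {S Q : T} {w : S ⟶ S} {q : S ⟶ Q} {δ : Q ⟶ S⟦(1 : ℤ)⟧}
    (hT : Triangle.mk w q δ ∈ distTriang T)
    {J : Type} (f : J → (N ⟶ S ⊗ N)) [hf : IsIso (Sigma.desc f)]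
    (hfv : ∀ a k, f a ≫ S ◁ vN k = vN k ≫ f a)
    (u : S ⊗ N ⟶ S ⊗ N) [hu : IsIso u] (c : ℕ → (S ⊗ N ⟶ S ⊗ N))
    (hw : w ▷ N = u ≫ S ◁ vN i + ∑ k ∈ Finset.range i, c k ≫ S ◁ vN k)
    (A : T) (hA : IsSphere A) :
    GoodReg i h (fun k => pc A (X ◁ (S ◁ vN k))) ∧
      Function.Surjective (pc A (X ◁ (q ▷ N) ≫ (α_ X Q N).inv)) ∧
      ∀ x : A ⟶ X ⊗ (S ⊗ N), pc A (X ◁ (q ▷ N) ≫ (α_ X Q N).inv) x = 0 ↔
        ∃ z, x = pc A (X ◁ (S ◁ vN i)) z := by
  have hreg : ∀ A : T, IsSphere A → GoodReg i h (fun k => pc A (X ◁ (S ◁ vN k))) := by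
    intro A hA
    refine (L A hA).sum (fun a => pc A (X ◁ f a)) (bij_sum X f hA) ?_
    intro a k x
    simp only [pc_apply, Category.assoc]
    rw [← whiskerLeft_comp, ← whiskerLeft_comp, hfv]
  have hT' : Triangle.mk (X ◁ (w ▷ N)) (X ◁ (q ▷ N)) (tensδ X (tensRδ δ N)) ∈ distTriang T :=
    tens_dist X (tensR_dist N hT)
  have hw' : ∀ (A : T) (_ : IsSphere A) (x : A ⟶ X ⊗ (S ⊗ N)),
      x ≫ X ◁ (w ▷ N) = (x ≫ X ◁ u) ≫ X ◁ (S ◁ vN i) := by
    intro A hA x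
    rw [hw, MonoidalPreadditive.whiskerLeft_add, Preadditive.comp_add, whiskerLeft_sum,
      Preadditive.comp_sum, Finset.sum_eq_zero, add_zero, whiskerLeft_comp, Category.assoc]
    intro k hk
    rw [whiskerLeft_comp, ← Category.assoc]
    exact (hreg A hA).zero k (Finset.mem_range.1 hk) (x ≫ X ◁ c k)
  have hinj : ∀ A : T, IsSphere A → ∀ x : A ⟶ X ⊗ (S ⊗ N), x ≫ X ◁ (w ▷ N) = 0 → x = 0 := by
    intro A hA x hx
    rw [hw' A hA] at hx
    have h1 := (hreg A hA).injective hih (x := x ≫ X ◁ u) hx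
    rw [← cancel_mono (X ◁ u), h1, zero_comp]
  refine ⟨hreg A hA, ?_, ?_⟩
  · intro c
    obtain ⟨b, hb⟩ := surj_of_inj hT' hinj hA (c ≫ (α_ X Q N).hom)
    refine ⟨b, ?_⟩
    rw [pc_apply, ← Category.assoc, hb, Category.assoc, Iso.hom_inv_id, Category.comp_id]
  · intro x
    constructor
    · intro hx
      have h1 : x ≫ X ◁ (q ▷ N) = 0 := by
        rw [← cancel_mono (α_ X Q N).inv, zero_comp, Category.assoc]
        exact hx
      obtain ⟨b, hb⟩ := ex₂ hT' x h1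
      exact ⟨b ≫ X ◁ u, by rw [hb, hw' A hA]; rfl⟩
    · rintro ⟨z, rfl⟩
      have h0 : (z ≫ X ◁ inv u) ≫ X ◁ u = z := by
        rw [Category.assoc, ← whiskerLeft_comp, IsIso.inv_hom_id,
          MonoidalCategory.whiskerLeft_id, Category.comp_id]
      have h1 : (pc A (X ◁ (S ◁ vN i))) z = (z ≫ X ◁ inv u) ≫ X ◁ (w ▷ N) := by
        rw [hw' A hA, h0]
        rfl
      have h2 : X ◁ (w ▷ N) ≫ X ◁ (q ▷ N) = 0 := comp_distTriang_mor_zero₁₂ _ hT'
      rw [h1, pc_apply, Category.assoc, reassoc_of% h2, zero_comp, comp_zero]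

section Level

variable {I : Type} (N K : T) (vN : ℕ → (N ⟶ N)) (φ : I → (N ⟶ K ⊗ N))

/-- The comparison at the object `X` (`= kos i`), with `r : X ⊗ K ⟶ G`. -/
structure Lev (i h : ℕ) (X G : T) (r : X ⊗ K ⟶ G) : Prop where
  reg : ∀ A : T, IsSphere A → GoodReg i h (fun k => pc A (X ◁ vN k))
  reg' : ∀ A : T, IsSphere A → GoodReg i h (fun k => pc A (G ◁ vN k))
  map : ∀ A : T, IsSphere A → GoodQ h (fun k => pc A (X ◁ vN k)) (fun k => pc A (G ◁ vN k))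
    (fun e => pc A (X ◁ φ e ≫ (α_ X K N).inv ≫ r ▷ N))

variable {N K vN φ}

theorem perm_nat {S Q : T} (q : S ⟶ Q) :
    q ▷ (K ⊗ N) ≫ perm Q K N = perm S K N ≫ K ◁ (q ▷ N) := by
  unfold perm
  rw [associator_inv_naturality_left_assoc, ← comp_whiskerRight_assoc,
    BraidedCategory.braiding_naturality_left, comp_whiskerRight_assoc,
    associator_naturality_middle]
  simp only [Category.assoc]

theorem step_coh {X G S Q : T} (r : X ⊗ K ⟶ G) (q : S ⟶ Q) (f : N ⟶ K ⊗ N) :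
    (X ◁ (q ▷ N) ≫ (α_ X Q N).inv) ≫ ((X ⊗ Q) ◁ f ≫ (α_ (X ⊗ Q) K N).inv ≫
      ((α_ X Q K).hom ≫ X ◁ ((β_ Q K).hom ≫ 𝟙 _) ≫ (α_ X K Q).inv ≫ r ▷ Q) ▷ N) =
    (X ◁ (S ◁ f ≫ perm S K N) ≫ (α_ X K (S ⊗ N)).inv ≫ r ▷ (S ⊗ N)) ≫
      (G ◁ (q ▷ N) ≫ (α_ G Q N).inv) := by
  have h1 := step_coherence (N := N) r (𝟙 Q) (𝟙 (K ⊗ Q)) (by simp) f
  rw [id_whiskerRight, MonoidalCategory.whiskerLeft_id, Category.id_comp] at h1
  rw [Category.assoc, h1]
  have h2 : X ◁ (q ▷ N) ≫ X ◁ (Q ◁ f ≫ perm Q K N) =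
      X ◁ (S ◁ f ≫ perm S K N) ≫ X ◁ (K ◁ (q ▷ N)) := by
    rw [← whiskerLeft_comp, ← whiskerLeft_comp, ← whisker_exchange_assoc, perm_nat,
      Category.assoc]
  simp only [Category.assoc]
  rw [reassoc_of% h2, associator_inv_naturality_right_assoc, whisker_exchange_assoc]

/-- **The Koszul step.** -/
theorem Lev.step {i h : ℕ} {X G : T} {r : X ⊗ K ⟶ G} (L : Lev N K vN φ i h X G r)
    (hih : i < h) {S Q : T} {w : S ⟶ S} {q : S ⟶ Q} {δ : Q ⟶ S⟦(1 : ℤ)⟧}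
    (hT : Triangle.mk w q δ ∈ distTriang T)
    {J : Type} (f : J → (N ⟶ S ⊗ N)) [hf : IsIso (Sigma.desc f)]
    (hfv : ∀ a k, f a ≫ S ◁ vN k = vN k ≫ f a)
    (u : S ⊗ N ⟶ S ⊗ N) [hu : IsIso u] (c : ℕ → (S ⊗ N ⟶ S ⊗ N))
    (hw : w ▷ N = u ≫ S ◁ vN i + ∑ k ∈ Finset.range i, c k ≫ S ◁ vN k)
    (hφ : ∀ a e, f a ≫ S ◁ φ e ≫ perm S K N = φ e ≫ K ◁ f a) :
    ∃ r' : (X ⊗ Q) ⊗ K ⟶ G ⊗ Q, Lev N K vN φ (i + 1) h (X ⊗ Q) (G ⊗ Q) r' := by
  refine ⟨(α_ X Q K).hom ≫ X ◁ ((β_ Q K).hom ≫ 𝟙 _) ≫ (α_ X K Q).inv ≫ r ▷ Q, ?_⟩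
  have H1 := regStep L.reg hih hT f hfv u c hw
  have H2 := regStep L.reg' hih hT f hfv u c hw
  have hmap : ∀ A : T, IsSphere A → GoodQ h (fun k => pc A (X ◁ (S ◁ vN k)))
      (fun k => pc A (G ◁ (S ◁ vN k)))
      (fun e => pc A (X ◁ (S ◁ φ e ≫ perm S K N) ≫ (α_ X K (S ⊗ N)).inv ≫ r ▷ (S ⊗ N))) := by
    intro A hA
    refine (L.map A hA).sum (L.reg A hA).comm (fun j x => (H2 A hA).1.comm h j x)
      (fun a => pc A (X ◁ f a)) (bij_sum X f hA)
      (fun a => pc A (G ◁ f a)) (bij_sum G f hA) ?_ ?_ ?_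
    · intro a k x
      simp only [pc_apply, Category.assoc]
      rw [← whiskerLeft_comp, ← whiskerLeft_comp, hfv]
    · intro a k x
      simp only [pc_apply, Category.assoc]
      rw [← whiskerLeft_comp, ← whiskerLeft_comp, hfv]
    · intro a e x
      simp only [pc_apply, Category.assoc]
      congr 1
      rw [← whisker_exchange, ← associator_inv_naturality_right_assoc, ← whiskerLeft_comp_assoc,
        ← whiskerLeft_comp_assoc, hφ a e]
  refine ⟨fun A hA => ?_, fun A hA => ?_, fun A hA => ?_⟩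
  · exact (H1 A hA).1.quot (pc A (X ◁ (q ▷ N) ≫ (α_ X Q N).inv)) (H1 A hA).2.1
      (fun k x => quot_comm q (vN k) A x) (H1 A hA).2.2
  · exact (H2 A hA).1.quot (pc A (G ◁ (q ▷ N) ≫ (α_ G Q N).inv)) (H2 A hA).2.1
      (fun k x => quot_comm q (vN k) A x) (H2 A hA).2.2
  · refine (hmap A hA).quot (pc A (X ◁ (q ▷ N) ≫ (α_ X Q N).inv)) (H1 A hA).2.1
      (fun k x => quot_comm q (vN k) A x) (pc A (G ◁ (q ▷ N) ≫ (α_ G Q N).inv)) (H2 A hA).2.1
      (fun k x => quot_comm q (vN k) A x) ?_ ?_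
    · intro x hx
      obtain ⟨z, rfl⟩ := ((H2 A hA).2.2 x).1 hx
      exact apply_mem_VI (fun k => pc A (G ◁ (S ◁ vN k))) hih z
    · intro e x
      have := step_coh r q (φ e)
      simp only [pc_apply]
      rw [Category.assoc, this]
      simp only [Category.assoc]

/-- inverting `v h` -/
theorem isIso_tel {h : ℕ} {X Y : T} (a : Y ⟶ Y) [IsIso a] (ψ : I → (X ⊗ N ⟶ Y))
    (hreg : ∀ A : T, IsSphere A → GoodReg h h (fun k => pc A (X ◁ vN k)))
    (hmap : ∀ A : T, IsSphere A → GoodMap h (fun k => pc A (X ◁ vN k)) (pc A a)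
      (fun e => pc A (ψ e)))
    (U : Tel (X := fun _ => N) (fun _ => vN h)) (hψ : ∀ e, X ◁ vN h ≫ ψ e = ψ e ≫ a) :
    ∃ l : I → (X ⊗ U.obj ⟶ Y), IsIso (Sigma.desc l) := by
  classical
  have hl : ∀ e, ∃ l : X ⊗ U.obj ⟶ Y, ∀ m, X ◁ U.ι m ≫ l = ψ e ≫ itr (inv a) m := by
    intro e
    refine (U.tensL X).exists_desc (Z := Y) (fun m => ψ e ≫ itr (inv a) m) ?_
    intro m
    change X ◁ vN h ≫ ψ e ≫ itr (inv a) (m + 1) = _
    rw [itr_succ', reassoc_of% (hψ e), IsIso.hom_inv_id_assoc]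
  choose l hl using hl
  refine ⟨l, ?_⟩
  have hkey : ∀ (m : ℕ) (e : I), X ◁ U.ι m ≫ l e ≫ itr a m = ψ e := by
    intro m e
    have h3 : itr (inv a) m ≫ itr a m = 𝟙 _ := itr_comp_itr _ _ (IsIso.inv_hom_id _) m
    rw [reassoc_of% (hl e m), h3, Category.comp_id]
  have hshift : ∀ (m k : ℕ), itr (X ◁ vN h) k ≫ X ◁ U.ι (m + k) = X ◁ U.ι m := by
    intro m k
    have := (U.tensL X).trT_ι m k
    rw [trT_const] at this
    exact this
  have hVI : ∀ (A : T) (_ : IsSphere A) (x : A ⟶ X ⊗ N),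
      x ∈ VI (fun k => pc A (X ◁ vN k)) h → x = 0 := by
    rintro A hA x ⟨y, rfl⟩
    exact Finset.sum_eq_zero fun j hj => (hreg A hA).zero j (Finset.mem_range.1 hj) _
  refine isIso_of_bij _ ?_ ?_
  · intro A hA x hx
    obtain ⟨s, g, rfl⟩ := compact_sum _ hA x
    have hfac : ∀ e, ∃ (m : ℕ) (a : A ⟶ X ⊗ N), a ≫ X ◁ U.ι m = g e := fun e =>
      (U.tensL X).exists_factor (isCpt_sphere hA) (g e)
    choose m a' ha using hfac
    let M : ℕ := ∑ e ∈ s, m e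
    have hM : ∀ e ∈ s, m e + (M - m e) = M := fun e he => by
      have : m e ≤ M := Finset.single_le_sum (f := m) (fun _ _ => Nat.zero_le _) he
      omega
    let b : I → (A ⟶ X ⊗ N) := fun e => if e ∈ s then a' e ≫ itr (X ◁ vN h) (M - m e) else 0
    have hb : ∀ e ∈ s, b e ≫ X ◁ U.ι M = g e := by
      intro e he
      have h1 := hshift (m e) (M - m e)
      rw [hM e he] at h1
      simp only [b, if_pos he]
      rw [Category.assoc, h1, ha]
    let bb : I →₀ (A ⟶ X ⊗ N) := Finsupp.onFinset s b (by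
      intro e he
      by_contra h1
      exact he (if_neg h1))
    have h1 : (bb.sum fun e y => pc A (ψ e) y) = 0 := by
      rw [Finsupp.onFinset_sum _ (by simp)]
      have h2 : (∑ e ∈ s, g e ≫ l e) ≫ itr a M = 0 := by
        have : (∑ e ∈ s, g e ≫ l e) = 0 := by
          rw [← hx, Preadditive.sum_comp]
          refine Finset.sum_congr rfl fun e _ => ?_
          rw [Category.assoc, Sigma.ι_desc]
        rw [this, zero_comp]
      rw [← h2, Preadditive.sum_comp]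
      refine Finset.sum_congr rfl fun e he => ?_
      rw [← hb e he, pc_apply, ← hkey M e]
      simp only [Category.assoc]
    refine Finset.sum_eq_zero fun e he => ?_
    obtain ⟨k, hk⟩ := (hmap A hA).inj bb h1 e
    have h2 := hVI A hA _ hk
    rw [pc_iterate] at h2
    have h3 : bb e = b e := rfl
    rw [h3] at h2
    rw [← hb e he, ← hshift M k, ← Category.assoc (b e), h2, zero_comp, zero_comp]
  · intro A hA y
    obtain ⟨k, x, hx⟩ := (hmap A hA).surj y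
    refine ⟨∑ e ∈ x.support, (x e ≫ X ◁ U.ι k) ≫ Sigma.ι (fun _ : I => X ⊗ U.obj) e, ?_⟩
    have := isIso_itr a k
    rw [← cancel_mono (itr a k), Preadditive.sum_comp, Preadditive.sum_comp]
    rw [pc_iterate] at hx
    rw [hx, Finsupp.sum]
    refine Finset.sum_congr rfl fun e _ => ?_
    rw [pc_apply, ← hkey k e]
    simp only [Category.assoc, Sigma.ι_desc_assoc]

/-- **The final step.** -/
theorem Lev.final {h : ℕ} {X G : T} {r : X ⊗ K ⟶ G} (L : Lev N K vN φ h h X G r)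
    (U : Tel (X := fun _ => N) (fun _ => vN h))
    (hφv : ∀ e, vN h ≫ φ e = φ e ≫ K ◁ vN h) :
    ∃ l : I → (X ⊗ U.obj ⟶ G ⊗ N), IsIso (Sigma.desc l) := by
  have H := fun A hA => (L.map A hA).last (L.reg' A hA).zero
  have : IsIso (G ◁ vN h) := by
    refine isIso_of_bij _ (fun A hA x hx => ?_) (fun A hA y => (H A hA).2.2 y)
    exact (injective_iff_map_eq_zero _).1 (H A hA).2.1 x hx
  refine isIso_tel (G ◁ vN h) _ L.reg (fun A hA => (H A hA).1) U fun e => ?_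
  simp only [Category.assoc]
  rw [← whisker_exchange, ← associator_inv_naturality_right_assoc, ← whiskerLeft_comp_assoc,
    ← whiskerLeft_comp_assoc, hφv]

end Level

end Vale.Agent.P251Z
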