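import Vale.Agent.P251.Z.KComparison
import Vale.Agent.P251.Z.KMU
import Vale.Agent.P251Z.Lev

/-!
# P251Z: the comparison `K ⊗ W = 0 ⟹ K_h ⊗ W = 0` when `I_h` is regular on `π_*(K ⊗ P)`
-/

open CategoryTheory MonoidalCategory Limits Pretriangulated MonObj

set_option linter.unusedSectionVars false

universe v u

namespace Vale.Agent.P251Z

open Vale.Agent.P251.T Vale.Agent.P251.S Vale.Agent.P251.Z

variable {T : Type u} [Category.{v} T] [Preadditive T] [HasZeroObject T]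
    [HasShift T ℤ] [∀ n : ℤ, (shiftFunctor T n).Additive] [Pretriangulated T] [IsTriangulated T]
    [MonoidalCategory T] [SymmetricCategory T] [TensorTriangulated T] [MonoidalClosed T]
    [HasCoproducts.{0} T] [HasProducts.{0} T] [StableCat T]

/-- The hypotheses of the comparison. -/
structure RevE (P : T) [MonObj P] (p : ℤ) (h : ℕ) (v : ℕ → (𝟙_ T ⟶ P)) (K : T)
    {I : Type} (φ : I → (P ⟶ K ⊗ P)) {J : Type} (f : J → (P ⟶ P ⊗ P)) : Prop where
  inv : InvData P p h v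
  linφ : ∀ e, Lin (φ e)
  linf : ∀ a, Lin (f a)
  free : IsIso (Sigma.desc f)
  reg : ∀ A : T, IsSphere A → GoodReg 0 h (fun k => pc A (vP v k))
  reg' : ∀ A : T, IsSphere A → GoodReg 0 h (fun k => pc A (K ◁ vP v k))
  map : ∀ A : T, IsSphere A → GoodQ h (fun k => pc A (vP v k)) (fun k => pc A (K ◁ vP v k))
    (fun e => pc A (φ e))

variable {P : T} [MonObj P] [IsCommMonObj P] {p : ℤ} {h : ℕ} {v : ℕ → (𝟙_ T ⟶ P)}
  (D : KosData P p h v) {K : T} {I : Type} {φ : I → (P ⟶ K ⊗ P)} {J : Type}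
  {f : J → (P ⟶ P ⊗ P)}

/-- the level `0` -/
theorem RevE.level_zero (R : RevE P p h v K φ f) :
    Lev P K (vP v) φ 0 h (𝟙_ T) K (λ_ K).hom := by
  have hb : ∀ (A X : T), Function.Bijective (pc A (λ_ X).inv) := by
    intro A X
    constructor
    · intro x y hxy
      exact (cancel_mono (λ_ X).inv).1 hxy
    · intro y
      exact ⟨y ≫ (λ_ X).hom, by simp⟩
  have hn : ∀ (A : T) (k : ℕ) (x : A ⟶ P), pc A (λ_ P).inv (pc A (vP v k) x) =
      pc A ((𝟙_ T) ◁ vP v k) (pc A (λ_ P).inv x) := by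
    intro A k x
    simp only [pc_apply, Category.assoc]
    rw [leftUnitor_inv_naturality]
  refine ⟨fun A hA => ?_, R.reg', fun A hA => ?_⟩
  · exact (R.reg A hA).congr (pc A (λ_ P).inv) (hb A P) (hn A)
  · refine (R.map A hA).quot (pc A (λ_ P).inv) (hb A P).2 (hn A) (AddMonoidHom.id _)
      Function.surjective_id (fun _ _ => rfl) (fun x hx => ?_) ?_
    · rw [show x = 0 from hx]
      exact zero_mem _
    · intro e x
      simp only [pc_apply, AddMonoidHom.id_apply, Category.assoc]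
      rw [← leftUnitor_inv_naturality_assoc]
      congr 1
      have : (λ_ (K ⊗ P)).inv ≫ (α_ (𝟙_ T) K P).inv ≫ (λ_ K).hom ▷ P = 𝟙 _ := by monoidal
      rw [this, Category.comp_id]

/-- all levels -/
theorem RevE.exists_level (R : RevE P p h v K φ f) (i : ℕ) (hi : i ≤ h) :
    ∃ (G Z : T) (_ : G ≅ K ⊗ Z) (r : D.kos i ⊗ K ⟶ G), Lev P K (vP v) φ i h (D.kos i) G r := by
  induction i with
  | zero => exact ⟨K, 𝟙_ T, (ρ_ K).symm, (λ_ K).hom, R.level_zero⟩
  | succ i ih =>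
    obtain ⟨G, Z, e, r, L⟩ := ih (by omega)
    have hdist : ∀ (S : T), (K ⊗ Z) ⊗ S ≅ K ⊗ (Z ⊗ S) := fun S => α_ K Z S
    match i, r, L with
    | 0, r, L =>
      have hfv : ∀ (_ : Unit) (k : ℕ), (λ_ P).inv ≫ (𝟙_ T) ◁ vP v k = vP v k ≫ (λ_ P).inv :=
        fun _ k => (leftUnitor_inv_naturality _).symm
      obtain ⟨r', L'⟩ := L.step (by omega) D.dist0 (fun _ : Unit => (λ_ P).inv) hfv (𝟙 _)
        (fun _ => 0) (by
          rw [Category.id_comp, Finset.sum_range_zero, add_zero, vP_zero R.inv,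
            whiskerLeft_zsmul', whiskerRight_zsmul', id_whiskerRight,
            MonoidalCategory.whiskerLeft_id])
        (fun _ e => by
          rw [← leftUnitor_inv_naturality_assoc, unit_perm])
      exact ⟨G ⊗ D.Q 0, Z ⊗ D.Q 0, whiskerRightIso e _ ≪≫ hdist _, r', L'⟩
    | i + 1, r, L =>
      obtain ⟨u, c, hu, hw⟩ := InvRel.swap (R.inv.inv (i + 1) (by omega) (by omega))
      have := R.free
      obtain ⟨r', L'⟩ := L.step (by omega) (D.dist i) f
        (fun a k => ((R.linf a).smul_comm (v k)).symm) u c hw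
        (fun a e => (R.linf a).comm (R.linφ e))
      exact ⟨G ⊗ D.Q (i + 1), Z ⊗ D.Q (i + 1), whiskerRightIso e _ ≪≫ hdist _, r', L'⟩

/-- `K_h` is a direct summand of `K ⊗ Z`, for some `Z`. -/
theorem RevE.exists_retract [Nonempty I] (R : RevE P p h v K φ f) :
    ∃ (Z : T) (s : D.K ⟶ K ⊗ Z) (t : K ⊗ Z ⟶ D.K), s ≫ t = 𝟙 _ := by
  obtain ⟨G, Z, e, r, L⟩ := R.exists_level D h le_rfl
  obtain ⟨F, hF⟩ := L.final D.isTel.tel (fun e => (R.linφ e).smul_comm (v h))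
  let e₀ : I := Classical.arbitrary I
  let F' : I → (D.K ⟶ G ⊗ P) := F
  have hF' : IsIso (Sigma.desc F') := hF
  let E : G ⊗ P ≅ K ⊗ (Z ⊗ P) := whiskerRightIso e P ≪≫ α_ K Z P
  refine ⟨Z ⊗ P, F' e₀ ≫ E.hom,
    E.inv ≫ CategoryTheory.inv (Sigma.desc F') ≫ sproj (fun _ : I => D.K) e₀, ?_⟩
  have h1 : F' e₀ = Sigma.ι (fun _ : I => D.K) e₀ ≫ Sigma.desc F' := by simp
  rw [Category.assoc, Iso.hom_inv_id_assoc, h1, Category.assoc, IsIso.hom_inv_id_assoc,
    ι_sproj_self]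

/-- **`K ⊗ W = 0` implies `K_h ⊗ W = 0`.** -/
theorem RevE.acyclic [Nonempty I] (R : RevE P p h v K φ f) {W : T} (hW : Acyclic K W) :
    Acyclic D.K W := by
  obtain ⟨Z, s, t, hst⟩ := R.exists_retract D
  have h1 : IsZero ((K ⊗ Z) ⊗ W) := by
    have e : (K ⊗ Z) ⊗ W ≅ K ⊗ (Z ⊗ W) := α_ K Z W
    exact (acyclic_tensor hW Z).of_iso e
  unfold Acyclic
  rw [IsZero.iff_id_eq_zero]
  have h2 : 𝟙 (D.K ⊗ W) = (s ▷ W) ≫ (t ▷ W) := by
    rw [← comp_whiskerRight, hst, id_whiskerRight]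
  rw [h2, h1.eq_of_tgt (s ▷ W) 0, zero_comp]

end Vale.Agent.P251Z
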