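import Vale.Agent.P251.Z.KGood
import Vale.Agent.P251Z.QAlg
import Mathlib.RingTheory.MvPolynomial.Ideal

/-!
# P251Z: the algebraic form of the comparison, for a law on which `I_h` is regular and
`A / I_h = 𝔽_p[v_h, v_h⁻¹]`
-/

namespace Vale.Agent.P251Z

open Vale.Agent.P217 Vale.Agent.P251.F Vale.Agent.P251.Z

theorem mem_VI_iff {B : Type*} [CommRing B] (p h : ℕ) (G : Law B) (x : B) :
    x ∈ VI (fun k => mulA (vv p k G)) h ↔ x ∈ Ih p h G := by
  constructor
  · rintro ⟨y, rfl⟩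
    exact Ideal.sum_mem _ fun j hj =>
      Ideal.mul_mem_right _ _ (vv_mem_Ih (Finset.mem_range.1 hj) G)
  · intro hx
    have key : ∀ y : B, x * y ∈ VI (fun k => mulA (vv p k G)) h := by
      unfold Ih at hx
      induction hx using Submodule.span_induction with
      | mem a ha =>
        obtain ⟨i, hi, rfl⟩ := ha
        exact fun y => apply_mem_VI (fun k => mulA (vv p k G)) hi y
      | zero => intro y; rw [zero_mul]; exact zero_mem _
      | add a b _ _ ha hb => intro y; rw [add_mul]; exact add_mem (ha y) (hb y)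
      | smul a b _ hb =>
        intro y
        rw [smul_eq_mul, mul_comm a, mul_assoc]
        exact hb _
    simpa using key 1

theorem bL_map {A A' : Type*} [CommRing A] [CommRing A'] (F : Law A) (f : A →+* A') :
    (bL F).map (MvPolynomial.map f) = bL (F.map f) := by
  unfold bL
  rw [InvSeries.map_smul, Law.map_map, Law.map_map, map_strictMk, MvPolynomial.map_comp_C]
  congr 2
  funext i
  exact MvPolynomial.map_X f i

variable {p h : ℕ} [hp : Fact p.Prime] {A : Type*} [CommRing A]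

theorem Ih_bL (F : Law A) (k : ℕ) : Ih p k (bL F) = (Ih p k F).map MvPolynomial.C := by
  unfold bL
  rw [Ih_smul, Ih_map]

theorem vv_bL_sub (F : Law A) (k : ℕ) :
    vv p k (bL F) - MvPolynomial.C (vv p k F) ∈ (Ih p k F).map MvPolynomial.C := by
  have h1 := vv_smul_sub_mem p k (F.map (MvPolynomial.C : A →+* MvPolynomial ℕ A))
    (strictMk MvPolynomial.X)
  rw [c_zero_strictMk, one_pow, mul_one, one_mul, vv_map, Ih_map] at h1
  exact h1

theorem reg_bL (F : Law A) {k : ℕ} (hF : ∀ x, vv p k F * x ∈ Ih p k F → x ∈ Ih p k F)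
    (y : MvPolynomial ℕ A) (hy : vv p k (bL F) * y ∈ Ih p k (bL F)) : y ∈ Ih p k (bL F) := by
  rw [Ih_bL] at hy ⊢
  have h1 : MvPolynomial.C (vv p k F) * y ∈ (Ih p k F).map MvPolynomial.C := by
    have h2 := sub_mem hy (Ideal.mul_mem_right y _ (vv_bL_sub (p := p) F k))
    have h3 : vv p k (bL F) * y - (vv p k (bL F) - MvPolynomial.C (vv p k F)) * y =
        MvPolynomial.C (vv p k F) * y := by ring
    rwa [h3] at h2
  rw [MvPolynomial.mem_map_C_iff] at h1 ⊢
  intro m
  have h2 := h1 m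
  rw [MvPolynomial.coeff_C_mul] at h2
  exact hF _ h2

section main

variable {R₀ B₀ : Type*} [CommRing R₀] [CommRing B₀] (F : Law A) (G : Law R₀)
  (ε : MvPolynomial ℕ A →+* B₀) (hε : Function.Bijective ε) (ρ : R₀ →+* B₀)
  (hρ : G.map ρ = (bL F).map ε)

omit hp in
include hε hρ in
theorem mem_Ih_iff (k : ℕ) (y : MvPolynomial ℕ A) :
    ε y ∈ Ih p k (G.map ρ) ↔ y ∈ Ih p k (bL F) := by
  rw [hρ, Ih_map]
  constructor
  · intro hy
    obtain ⟨z, hz, hzy⟩ := (Ideal.mem_map_iff_of_surjective ε hε.2).1 hy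
    rwa [← hε.1 hzy]
  · exact Ideal.mem_map_of_mem ε

include hε hρ in
theorem goodReg_ring (hF : ∀ k < h, ∀ x, vv p k F * x ∈ Ih p k F → x ∈ Ih p k F) :
    GoodReg 0 h (fun k => mulA (vv p k (G.map ρ))) := by
  refine ⟨fun j k x => by simp only [mulA_apply]; ring,
    fun j hj => absurd hj (Nat.not_lt_zero j), fun k _ hk x hx => ?_⟩
  rw [mem_VI_iff] at hx ⊢
  obtain ⟨y, rfl⟩ := hε.2 x
  have h1 : vv p k (G.map ρ) = ε (vv p k (bL F)) := by rw [hρ, vv_map]
  rw [mulA_apply, h1, ← map_mul, mem_Ih_iff F G ε hε ρ hρ] at hx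
  rw [mem_Ih_iff F G ε hε ρ hρ]
  exact reg_bL F (hF k hk) y hx

include hε hρ in
theorem goodQ_ring (hh : h ≠ 0) [Algebra (Polynomial (ZMod p)) (A ⧸ Ih p h F)]
    [IsLocalization.Away (Polynomial.X : Polynomial (ZMod p)) (A ⧸ Ih p h F)]
    (hv : Ideal.Quotient.mk (Ih p h F) (vv p h F) =
      algebraMap (Polynomial (ZMod p)) (A ⧸ Ih p h F) Polynomial.X)
    (hgen : ∀ x : R₀, ∃ (z : Laz) (y : R₀), x = Laz.lift G z + (p : R₀) * y) :
    GoodQ h (fun k => mulA (vv p k G)) (fun k => mulA (vv p k (G.map ρ)))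
      (fun e : Small (kdeg p h) => (mulA (ε (MvPolynomial.monomial (e : ℕ →₀ ℕ) 1))).comp
        ρ.toAddMonoidHom) := by
  set q := Ideal.Quotient.mk (Ih p h F) with hq
  set q' := Ideal.Quotient.mk (Ih p h (G.map ρ)) with hq'
  have hC : ∀ a ∈ Ih p h F, ((q'.comp ε).comp MvPolynomial.C) a = 0 := by
    intro a ha
    change q' (ε (MvPolynomial.C a)) = 0
    rw [hq', Ideal.Quotient.eq_zero_iff_mem, mem_Ih_iff F G ε hε ρ hρ, Ih_bL]
    exact Ideal.mem_map_of_mem _ ha
  set ε' : MvPolynomial ℕ (A ⧸ Ih p h F) →+* B₀ ⧸ Ih p h (G.map ρ) :=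
    MvPolynomial.eval₂Hom (Ideal.Quotient.lift _ ((q'.comp ε).comp MvPolynomial.C) hC)
      (fun i => q' (ε (MvPolynomial.X i))) with hε'
  have hcomp : ε'.comp (MvPolynomial.map q) = q'.comp ε := by
    apply MvPolynomial.ringHom_ext
    · intro a
      rw [RingHom.comp_apply, MvPolynomial.map_C, hε', MvPolynomial.eval₂Hom_C]
      rfl
    · intro i
      rw [RingHom.comp_apply, MvPolynomial.map_X, hε', MvPolynomial.eval₂Hom_X']
      rfl
  have hcomp' : ∀ y, ε' (MvPolynomial.map q y) = q' (ε y) := fun y =>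
    congrFun (congrArg DFunLike.coe hcomp) y
  have hqs : Function.Surjective (MvPolynomial.map (σ := ℕ) q) :=
    MvPolynomial.map_surjective q Ideal.Quotient.mk_surjective
  have hbij : Function.Bijective ε' := by
    constructor
    · rw [injective_iff_map_eq_zero]
      intro y hy
      obtain ⟨y, rfl⟩ := hqs y
      rw [hcomp', hq', Ideal.Quotient.eq_zero_iff_mem, mem_Ih_iff F G ε hε ρ hρ, Ih_bL,
        MvPolynomial.mem_map_C_iff] at hy
      ext m
      rw [MvPolynomial.coeff_map, MvPolynomial.coeff_zero, hq, Ideal.Quotient.eq_zero_iff_mem]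
      exact hy m
    · intro b
      obtain ⟨b, rfl⟩ := Ideal.Quotient.mk_surjective b
      obtain ⟨y, rfl⟩ := hε.2 b
      exact ⟨_, hcomp' y⟩
  have hF0 : ∀ i < h, vv p i (F.map q) = 0 := fun i hi => by
    rw [vv_map, hq, Ideal.Quotient.eq_zero_iff_mem]
    exact vv_mem_Ih hi F
  have hρ' : G.map (q'.comp ρ) = (bL (F.map q)).map ε' := by
    rw [← bL_map, Law.map_map, hcomp, ← Law.map_map, ← Law.map_map]
    exact congrArg (Law.map q') hρ
  have H := goodMap_ring (p := p) hh (F.map q) hF0 (by rw [vv_map]; exact hv) G ε' hbij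
    (q'.comp ρ) hρ' hgen
  -- the comparison of the two quotients
  let g : (B₀ ⧸ VI (fun k => mulA (vv p k (G.map ρ))) h) →+ B₀ ⧸ Ih p h (G.map ρ) :=
    QuotientAddGroup.lift _ q'.toAddMonoidHom (fun x hx => by
      change q' x = 0
      rw [hq', Ideal.Quotient.eq_zero_iff_mem]
      exact (mem_VI_iff p h _ x).1 hx)
  have hg : ∀ x, g (QuotientAddGroup.mk' _ x) = q' x := fun x => rfl
  have hgb : Function.Bijective g := by
    constructor
    · rw [injective_iff_map_eq_zero]
      intro y hy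
      obtain ⟨x, rfl⟩ := QuotientAddGroup.mk'_surjective _ y
      rw [hg, hq', Ideal.Quotient.eq_zero_iff_mem] at hy
      exact mk_eq_zero.2 ((mem_VI_iff p h _ x).2 hy)
    · intro b
      obtain ⟨b, rfl⟩ := Ideal.Quotient.mk_surjective b
      exact ⟨_, hg b⟩
  let e := AddEquiv.ofBijective g hgb
  have he : ∀ x, e.symm (q' x) = QuotientAddGroup.mk' _ x := fun x =>
    e.symm_apply_eq.2 (hg x).symm
  have hc : ∀ j x, mulA (vv p h (G.map ρ)) (mulA (vv p j (G.map ρ)) x) =
      mulA (vv p j (G.map ρ)) (mulA (vv p h (G.map ρ)) x) := fun j x => by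
    simp only [mulA_apply]; ring
  have h1 : ∀ x, e.symm.toAddMonoidHom (mulA ((q'.comp ρ) (vv p h G)) x) =
      qm (v := fun k => mulA (vv p k (G.map ρ))) (v₂ := fun k => mulA (vv p k (G.map ρ))) h
        (mulA (vv p h (G.map ρ))) hc (e.symm.toAddMonoidHom x) := by
    intro x
    obtain ⟨x, rfl⟩ := Ideal.Quotient.mk_surjective x
    have h2 : mulA ((q'.comp ρ) (vv p h G)) (q' x) = q' (mulA (vv p h (G.map ρ)) x) := by
      rw [mulA_apply, mulA_apply, map_mul, vv_map]
      rfl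
    have h3 : e.symm.toAddMonoidHom (q' x) = QuotientAddGroup.mk' _ x := he x
    rw [h2, h3, qm_mk]
    exact he _
  have hu : IsUnit ((q'.comp ρ) (vv p h G)) := by
    rw [← vv_map, hρ', vv_map, vv_bL_self hF0, vv_map, hv]
    exact ((IsLocalization.Away.algebraMap_isUnit _).map _).map _
  refine ⟨hc, H.quot (AddMonoidHom.id R₀) Function.surjective_id (fun _ _ => rfl)
    e.symm.toAddMonoidHom e.symm.bijective h1 (fun s x => ?_),
    bij_of_conj e.symm.toAddMonoidHom e.symm.bijective h1 ?_⟩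
  · have h2 : ε' (MvPolynomial.monomial (s : ℕ →₀ ℕ) 1) =
        q' (ε (MvPolynomial.monomial (s : ℕ →₀ ℕ) 1)) := by
      rw [← hcomp', MvPolynomial.map_monomial, map_one q]
    have h3 : ((mulA (ε' (MvPolynomial.monomial (s : ℕ →₀ ℕ) 1))).comp
        (q'.comp ρ).toAddMonoidHom) x =
        q' (ε (MvPolynomial.monomial (s : ℕ →₀ ℕ) 1) * ρ x) := by
      rw [map_mul, ← h2]
      rfl
    rw [h3]
    exact (he _).symm
  · obtain ⟨w, hw⟩ := hu
    rw [← hw]
    exact w.mulLeft_bijective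

end main

end Vale.Agent.P251Z
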