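import Vale.Agent.P251.Z.KMor
import Vale.Agent.P251Z.RevE
import Vale.Agent.P251Z.RingE

/-!
# P251Z: the comparison for commutative monoids over `MU`

`K` a commutative monoid over `MU` with `π_{odd} K = 0`, such that `v_0, …, v_{h-1}` is a regular
sequence of `π_{2*} K` and `π_{2*} K / I_h = 𝔽_p[v_h^{±1}]`: `K ⊗ W = 0` implies `K_h ⊗ W = 0`.
-/

open CategoryTheory MonoidalCategory Limits Pretriangulated MonObj

set_option linter.unusedSectionVars false

universe v u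

namespace Vale.Agent.P251Z

open Vale.Agent.P251.T Vale.Agent.P251.M Vale.Agent.P251.S Vale.Agent.P251.F Vale.Agent.P251.I
  Vale.Agent.P251.Z EvenSpheres

variable {T : Type u} [Category.{v} T] [Preadditive T] [HasZeroObject T]
    [HasShift T ℤ] [∀ n : ℤ, (shiftFunctor T n).Additive] [Pretriangulated T] [IsTriangulated T]
    [MonoidalCategory T] [SymmetricCategory T] [TensorTriangulated T] [MonoidalClosed T]
    [HasCoproducts.{0} T] [HasProducts.{0} T] [StableCat T]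
    {D : MUData T} {F : SpaceFunctor T} {e : F.S.obj CCF ≅ (stdEven T).L} (hU : MUUniv e D)
    {C : T} {i : 𝟙_ T ⟶ C} {δ : C ⟶ (𝟙_ T)⟦(1 : ℤ)⟧} {p : ℕ} [Fact p.Prime] (hp : p ≠ 2)
    (hC : Triangle.mk ((p : ℤ) • 𝟙 (𝟙_ T)) i δ ∈ distTriang T)
    {K : T} [MonObj K] [IsCommMonObj K] (k : D.R ⟶ K) [IsMonHom k] {h : ℕ}

include k in
theorem theK_v (j : ℕ) (x : HRing (stdEven T) (K ⊗ D.R)) :
    (theK (E := stdEven T) K D.R).toAddMonoidHom
      (mulA (vv p j (D.law.map (HRing.map (E := stdEven T) (inrM K D.R)))) x) =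
    pc (𝟙_ T) (K ◁ vP (D.vs p) j) ((theK (E := stdEven T) K D.R).toAddMonoidHom x) := by
  have h1 : theK (E := stdEven T) K D.R
      (vv p j (D.law.map (HRing.map (E := stdEven T) (inrM K D.R))) * x) =
      theK K D.R (epsH (bK D k) (vv p j (bL (lawK D k)))) * theK K D.R x := by
    rw [map_mul, law_inr D k, vv_map]
  refine h1.trans ?_
  change _ = (theK (E := stdEven T) K D.R x : 𝟙_ T ⟶ K ⊗ D.P) ≫ K ◁ vP (D.vs p) j
  rw [whiskerLeft_vP D k]
  exact scMul_eq_smul (R := K ⊗ D.P) _ _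

include hU in
theorem goodReg_one
    (hreg : ∀ j < h, ∀ x, vv p j (lawK D k) * x ∈ Ih p j (lawK D k) → x ∈ Ih p j (lawK D k)) :
    GoodReg 0 h (fun j => pc (𝟙_ T) (K ◁ vP (D.vs p) j)) :=
  (goodReg_ring (lawK D k) D.law (epsH (bK D k)) (epsK_bijective k hU)
    (HRing.map (E := stdEven T) (inrM K D.R)) (law_inr D k) hreg).equiv
    (theK (E := stdEven T) K D.R).toAddMonoidHom (theK_bijective K D.R)
    (fun j x => theK_v k j x)

theorem goodReg_of_one (hodd : ∀ (l : ℤ) (f : (𝟙_ T)⟦2 * l + 1⟧ ⟶ K), f = 0)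
    {J : Type} (b : GBasis (stdEven T) (inlM K D.R) J)
    (H : GoodReg 0 h (fun j => pc (𝟙_ T) (K ◁ vP (D.vs p) j))) (A : T) (hA : IsSphere A) :
    GoodReg 0 h (fun j => pc A (K ◁ vP (D.vs p) j)) := by
  rcases sphere_cases (E := stdEven T) (Iso.refl _) hA with ⟨m, ⟨a⟩⟩ | ⟨l, ⟨a⟩⟩
  · obtain ⟨y, hy', -⟩ := exists_twist (stdEven T) D.R m a
    exact H.equiv (twY K y) (hy' K) (fun j γ => twY_v K y (D.vs p j) γ)
  · have h1 : ∀ x : A ⟶ K ⊗ D.P, x = 0 :=
      odd_of_iso a (odd_tensor (E := stdEven T) (Iso.refl _) b hodd)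
    refine ⟨fun j l x => ?_, fun j hj => absurd hj (Nat.not_lt_zero j), fun j _ _ x _ => ?_⟩
    · rw [h1 (pc A (K ◁ vP (D.vs p) j) _), h1 (pc A (K ◁ vP (D.vs p) l) _)]
    · rw [h1 x]
      exact zero_mem _

include hU hp hC in
theorem goodQ_one (hh : h ≠ 0)
    [Algebra (Polynomial (ZMod p)) (HRing (stdEven T) K ⧸ Ih p h (lawK D k))]
    [IsLocalization.Away (Polynomial.X : Polynomial (ZMod p))
      (HRing (stdEven T) K ⧸ Ih p h (lawK D k))]
    (hv : Ideal.Quotient.mk (Ih p h (lawK D k)) (vv p h (lawK D k)) =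
      algebraMap (Polynomial (ZMod p)) (HRing (stdEven T) K ⧸ Ih p h (lawK D k)) Polynomial.X) :
    GoodQ h (fun j => pc (𝟙_ T) (vP (D.vs p) j)) (fun j => pc (𝟙_ T) (K ◁ vP (D.vs p) j))
      (fun e : Small (kdeg p h) => pc (𝟙_ T) (phiK D k e)) := by
  have H := goodQ_ring (p := p) (lawK D k) D.law (epsH (bK D k))
    (epsK_bijective k hU) (HRing.map (E := stdEven T) (inrM K D.R)) (law_inr D k) hh hv
    (exists_L0_add D hp hC)
  refine H.quot (sharpTot (stdEven T) D.R) (sharpTot_bijective D.R).2 (fun j x => ?_)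
    (theK (E := stdEven T) K D.R).toAddMonoidHom (theK_bijective K D.R).2
    (fun j x => theK_v k j x) (fun x hx => ?_) (fun s x => ?_)
  · have h1 : sharpEquiv (stdEven T) D.R (vv p j D.law * x) =
        Sc.of (D.vs p j) * sharpEquiv (stdEven T) D.R x := by
      rw [map_mul, sharpHom_vv]
    exact h1.trans (scMul_eq_smul (R := D.P) (D.vs p j) _)
  · have h1 : x = 0 :=
      (injective_iff_map_eq_zero (theK (E := stdEven T) K D.R)).1 (theK_bijective K D.R).1 x hx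
    rw [h1]
    exact zero_mem _
  · have h1 : theK (E := stdEven T) K D.R
        (epsH (bK D k) (MvPolynomial.monomial (s : ℕ →₀ ℕ) 1) *
          HRing.map (E := stdEven T) (inrM K D.R) x) =
        theK K D.R (epsH (bK D k) (MvPolynomial.monomial (s : ℕ →₀ ℕ) 1)) *
          Sc.map (inrM K D.P) (sharpHom D.R x) := by
      rw [map_mul, theK_inr]
    exact (comp_mulEl _ _).trans h1.symm

include hp hC in
theorem goodQ_of_one (hh : h ≠ 0) (hodd : ∀ (l : ℤ) (f : (𝟙_ T)⟦2 * l + 1⟧ ⟶ K), f = 0)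
    {J : Type} (b : GBasis (stdEven T) (inlM K D.R) J) {I : Type}
    {φ : I → (D.P ⟶ K ⊗ D.P)} (hφ : ∀ e, Lin (φ e))
    (H : GoodQ h (fun j => pc (𝟙_ T) (vP (D.vs p) j)) (fun j => pc (𝟙_ T) (K ◁ vP (D.vs p) j))
      (fun e => pc (𝟙_ T) (φ e))) (A : T) (hA : IsSphere A) :
    GoodQ h (fun j => pc A (vP (D.vs p) j)) (fun j => pc A (K ◁ vP (D.vs p) j))
      (fun e => pc A (φ e)) := by
  rcases sphere_cases (E := stdEven T) (Iso.refl _) hA with ⟨m, ⟨a⟩⟩ | ⟨l, ⟨a⟩⟩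
  · obtain ⟨y, hy', hy⟩ := exists_twist (stdEven T) D.R m a
    refine H.quot (twP y) hy.2 (fun k x => twP_vP y (D.vs p) k x) (twY K y) (hy' K).2
      (fun j γ => twY_v K y (D.vs p j) γ) (fun x hx => ?_) (fun e x => twY_lin y (hφ e) x)
    have h1 : x = 0 := (injective_iff_map_eq_zero (twY K y)).1 (hy' K).1 x hx
    rw [h1]
    exact zero_mem _
  · have h1 : ∀ x : A ⟶ K ⊗ D.P, x = 0 :=
      odd_of_iso a (odd_tensor (E := stdEven T) (Iso.refl _) b hodd)
    have h1' : ∀ x : (A ⟶ K ⊗ D.P) ⧸ VI (fun j => pc A (K ◁ vP (D.vs p) j)) h, x = 0 := by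
      intro x
      obtain ⟨x, rfl⟩ := QuotientAddGroup.mk'_surjective _ x
      rw [h1 x, map_zero]
    have h0 : vP (D.vs p) 0 = (p : ℤ) • 𝟙 D.P := vP_zero (D.invData p 1)
    refine ⟨fun j x => (h1 _).trans (h1 _).symm,
      ⟨fun e x => (h1' _).trans (h1' _).symm, fun y => ⟨0, 0, (h1' _).trans (h1' _).symm⟩,
        fun x _ e => ⟨0, ?_⟩⟩,
      fun x y _ => (h1' _).trans (h1' _).symm, fun y => ⟨y, (h1' _).trans (h1' _).symm⟩⟩
    obtain ⟨y, hy⟩ := P_divisible_odd D hp hC (n := 2 * l + 1) ⟨l, rfl⟩ (a.inv ≫ x e)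
    have h2 : (x e : A ⟶ D.P) = pc A (vP (D.vs p) 0) (a.hom ≫ y) := by
      rw [pc_apply, h0, Preadditive.comp_zsmul, Category.comp_id, ← Preadditive.comp_zsmul, hy,
        Iso.hom_inv_id_assoc]
    change (x e : A ⟶ D.P) ∈ _
    rw [h2]
    exact apply_mem_VI (fun j => pc A (vP (D.vs p) j)) (Nat.pos_of_ne_zero hh) _

include hU hp hC in
/-- **The comparison** for a commutative monoid `K` over `MU`. -/
theorem acyclic_kosE (hh : h ≠ 0)
    (hreg : ∀ j < h, ∀ x, vv p j (lawK D k) * x ∈ Ih p j (lawK D k) → x ∈ Ih p j (lawK D k))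
    [Algebra (Polynomial (ZMod p)) (HRing (stdEven T) K ⧸ Ih p h (lawK D k))]
    [IsLocalization.Away (Polynomial.X : Polynomial (ZMod p))
      (HRing (stdEven T) K ⧸ Ih p h (lawK D k))]
    (hv : Ideal.Quotient.mk (Ih p h (lawK D k)) (vv p h (lawK D k)) =
      algebraMap (Polynomial (ZMod p)) (HRing (stdEven T) K ⧸ Ih p h (lawK D k)) Polynomial.X)
    (hodd : ∀ (l : ℤ) (f : (𝟙_ T)⟦2 * l + 1⟧ ⟶ K), f = 0)
    (Z : KosData D.P (p : ℤ) h (D.vs p)) {W : T} (hW : Acyclic K W) : Acyclic Z.K W := by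
  obtain ⟨b, -, -⟩ := D.exists_basis_of k hU
  obtain ⟨b', -, -⟩ := hU.basis
  obtain ⟨J, f, hf, hf'⟩ := exists_free_of_basis (E := stdEven T) (GBasis.ofAm b')
  have hI : Nonempty (Small (kdeg p h)) :=
    ⟨⟨0, fun j => by simpa using kdeg_pos (Fact.out : p.Prime).ne_zero h j⟩⟩
  have hR : RevE D.P (p : ℤ) h (D.vs p) K (fun e : Small (kdeg p h) => phiK D k e) f :=
    { inv := D.invData p h
      linφ := fun e => lin_mulEl _
      linf := hf
      free := hf'
      reg := fun A hA => goodReg_P D hp hC h A hA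
      reg' := goodReg_of_one hodd b (goodReg_one hU k hreg)
      map := goodQ_of_one hp hC hh hodd b (fun e => lin_mulEl _)
        (goodQ_one hU hp hC k hh hv) }
  exact hR.acyclic Z hW

end Vale.Agent.P251Z
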