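import Vale.Agent.P251Z.JWDef
import Vale.Agent.P251Z.JWAlg
import Vale.Agent.P251Z.MUE
import Vale.Agent.P257.H702.PTyp
import Vale.Agent.P251.St.Result2
import Vale.Agent.P251.Z.Final
import Vale.Agent.P251.M.BGlueD

/-!
# P251Z: no retraction at `p = n = 5`, for the Johnson-Wilson spectrum `E(4)`
-/

open CategoryTheory MonoidalCategory Limits Pretriangulated MonObj

set_option linter.unusedSectionVars false

noncomputable section

namespace Vale.Agent.P251Z

open Vale.Agent.P251 Vale.Agent.P251.I Vale.Agent.P251.T Vale.Agent.P251.M Vale.Agent.P251.St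
  Vale.Agent.P251.F Vale.Agent.P257.H702 Vale.Agent.P257.St
open Vale.Agent.P251.M.EvenSpheres

variable {T : SHCat} {S : Susp T} {R : RingSp T} {p : ℕ} [hp : Fact p.Prime]
  {o : St.Oriented S R} {φ : GHom S p R}

omit hp in
theorem vEl_eq (p : ℕ) : vEl p = vseq p := by
  funext i
  rcases i with _ | i <;> rfl

omit hp in
/-- the homogeneous components of `Φ x` -/
theorem component {Φ : MvPolynomial ℕ ℤ →+* HRing (stdEven T.C) R.obj}
    (hΦ : ∀ n (x : VPoly p n), Φ x = HRing.of (stdEven T.C) R.obj n ((isoE S n).inv ≫ φ n x))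
    (x : MvPolynomial ℕ ℤ) (n : ℕ) :
    (Φ x) (n : ℤ) = (isoE S n).inv ≫ φ n (DirectSum.decompose (VP p) x n) := by
  induction x using DirectSum.Decomposition.inductionOn (VP p) with
  | zero =>
    rw [map_zero, DirectSum.decompose_zero]
    have h2 : (isoE S n).inv ≫ φ n ((0 : DirectSum ℕ fun n => VP p n) n) = 0 := by
      rw [DirectSum.zero_apply, map_zero, comp_zero]
    rw [h2]
    rfl
  | @homogeneous i x =>
    rw [hΦ i x, DirectSum.decompose_coe]
    by_cases hi : i = n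
    · subst hi
      have h2 : (isoE S i).inv ≫ φ i ((DirectSum.of (fun n => VP p n) i x) i) =
          (isoE S i).inv ≫ φ i x := by
        rw [DirectSum.of_eq_same (β := fun n => VP p n) i x]
      rw [h2]
      exact DirectSum.of_eq_same (β := (stdEven T.C).Gr R.obj) (i : ℤ) _
    · have h2 : (isoE S n).inv ≫ φ n ((DirectSum.of (fun n => VP p n) i x) n) = 0 := by
        rw [DirectSum.of_eq_of_ne (β := fun n => VP p n) i n x (fun h => hi h.symm), map_zero,
          comp_zero]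
      rw [h2]
      exact DirectSum.of_eq_of_ne (β := (stdEven T.C).Gr R.obj) (i : ℤ) (n : ℤ) _
        (fun h => hi (by exact_mod_cast h.symm))
  | add x y hx hy =>
    have h2 : (isoE S n).inv ≫ φ n (DirectSum.decompose (VP p) (x + y) n) =
        (isoE S n).inv ≫ φ n (DirectSum.decompose (VP p) x n) +
          (isoE S n).inv ≫ φ n (DirectSum.decompose (VP p) y n) := by
      rw [← Preadditive.comp_add, ← map_add, DirectSum.decompose_add]
      rfl
    rw [h2, ← hx, ← hy, map_add]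
    rfl

/-- the homotopy ring of a Johnson-Wilson spectrum -/
theorem jwRing {k : ℕ} (H : IsJW p (k + 1) o φ)
    {Φ : MvPolynomial ℕ ℤ →+* HRing (stdEven T.C) R.obj}
    (hΦ : ∀ n (x : VPoly p n), Φ x = HRing.of (stdEven T.C) R.obj n ((isoE S n).inv ≫ φ n x)) :
    JWRing p k Φ := by
  classical
  have hpp : Prime (p : ℤ) := Nat.prime_iff_prime_int.mp hp.out
  have hcls : ∀ n (x : VPoly p n), Φ x = cls S R n (φ n x) := hΦ
  have hX : ∀ i, Φ (MvPolynomial.X i) = cls S R (p ^ (i + 1) - 1) (hazV φ (i + 1)) := fun i =>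
    hcls (p ^ (i + 1) - 1) ⟨vEl p (i + 1), vEl_mem p (i + 1)⟩
  refine ⟨isUnit_of_pLocal H.typ.isLocal, ?_, ?_, ?_, ?_⟩
  · obtain ⟨w, hw⟩ := H.inv
    rw [hX]
    exact Z.isUnit_of_inv (F := S.toSpaceFunctor) (isoE S (p ^ (k + 1) - 1)) _ w hw
  · intro y
    induction y using DirectSum.induction_on with
    | zero => exact ⟨1, 0, 0, fun h => hpp.not_isUnit (isUnit_of_dvd_one h), by simp⟩
    | of i y =>
      have hN : 1 ≤ p ^ (k + 1) - 1 := by
        have : 2 ≤ p ^ (k + 1) := two_le_pow hp.out (Nat.succ_ne_zero k)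
        omega
      have h1 : P257.H80.IsHomog R.obj ((p ^ (k + 1) - 1 : ℕ) : ℤ) (Φ (MvPolynomial.X k)) :=
        ⟨_, hX k⟩
      have h2 : P257.H80.IsHomog R.obj i (HRing.of (stdEven T.C) R.obj i y) := ⟨y, rfl⟩
      obtain ⟨d, hd⟩ : ∃ d : ℕ, (i.natAbs : ℤ) * ((p ^ (k + 1) - 1 : ℕ) : ℤ) + i = d := by
        refine Int.eq_ofNat_of_zero_le ?_
        have h3 : (1 : ℤ) ≤ ((p ^ (k + 1) - 1 : ℕ) : ℤ) := by exact_mod_cast hN
        have h4 : (0 : ℤ) ≤ (i.natAbs : ℤ) := Int.natCast_nonneg _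
        have h5 : -i ≤ (i.natAbs : ℤ) := by omega
        nlinarith
      obtain ⟨a, ha⟩ := (h1.pow i.natAbs).mul h2 hd
      obtain ⟨m, j, d', u, x, hm, hu, hx⟩ := H.gen d ((isoE S d).hom ≫ a)
      have h3 := cls_mul hx
      have h4 : cls S R d (zmul m ((isoE S d).hom ≫ a)) =
          (m : HRing (stdEven T.C) R.obj) * HRing.of (stdEven T.C) R.obj d a := by
        rw [zmul, map_zsmul, cls_apply, Iso.inv_hom_id_assoc, zsmul_eq_mul]
      have h5 : cls S R d' (φ.val u) = Φ (MvPolynomial.X k) ^ j := by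
        rw [← map_pow]
        exact (hcls d' u).symm.trans (congrArg Φ hu)
      refine ⟨m, j + i.natAbs, x, hm, ?_⟩
      rw [hcls _ x, h3, h4, h5, ← ha, pow_add]
      change _ * HRing.of (stdEven T.C) R.obj i y = _
      ring
    | add x y hx hy =>
      obtain ⟨m, j, a, hm, ha⟩ := hx
      obtain ⟨m', j', b, hm', hb⟩ := hy
      refine ⟨m * m', j + j', MvPolynomial.C m' * MvPolynomial.X k ^ j' * a +
        MvPolynomial.C m * MvPolynomial.X k ^ j * b, fun h => (hpp.dvd_or_dvd h).elim hm hm', ?_⟩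
      rw [map_add, map_mul, map_mul, map_mul, map_mul, map_pow, map_pow, map_C_int, map_C_int,
        ← ha, ← hb]
      push_cast
      ring
  · intro x hx
    rw [← DirectSum.sum_support_decompose (VP p) x, ← vEl_eq]
    refine Ideal.sum_mem _ fun n _ => (H.ker n _).1 ?_
    have h1 := component hΦ x n
    rw [hx] at h1
    rw [← cancel_epi (isoE S n).inv, ← h1, comp_zero]
    rfl
  · intro i hi
    have h1 : hazV φ (i + 1) = 0 :=
      (H.ker _ _).2 (Ideal.subset_span ⟨i + 1, Nat.succ_lt_succ hi, rfl⟩)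
    rw [hX, h1, map_zero]

/-- **`E(n)`-acyclic objects are acyclic for the Koszul object of height `n`.** -/
theorem kos_of_jw (hp2 : p ≠ 2) {k : ℕ} (H : IsJW p (k + 1) o φ) {D : MUData T.C}
    (hD : MUUniv (M.lineIso S.toSpaceFunctor) D)
    (Z' : P251.S.KosData D.P (p : ℤ) (k + 1) (D.vs p)) {W : T.C}
    (hW : P251.S.Acyclic R.obj W) : P251.S.Acyclic Z'.K W := by
  obtain ⟨u, hu, hlaw⟩ := exists_classify hD o
  obtain ⟨Φ, hΦ, hlaw'⟩ := exists_hom H.typ
  have J := jwRing H hΦ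
  have h1 : Z.lawK D u = (P257.H80.haz p).map Φ := hlaw.trans hlaw'
  obtain ⟨C, i, δ, hC⟩ := distinguished_cocone_triangle ((p : ℤ) • 𝟙 (𝟙_ T.C))
  have h2 := J.exists_alg
  rw [← h1] at h2
  obtain ⟨alg, hloc, hv⟩ := h2
  refine acyclic_kosE hD hp2 hC u (Nat.succ_ne_zero k) (fun j hj x hx => ?_) hv
    (fun l f => H.odd (2 * l + 1) f ⟨l, rfl⟩) Z' hW
  rw [h1] at hx ⊢
  exact J.reg hj x hx

/-- **No retraction**, for the Johnson-Wilson spectrum `E(4)` at `p = 5`. -/
theorem noRetractionJW (S : Susp T) : NoRetractionJW S 5 5 := by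
  have : Fact (Nat.Prime 5) := ⟨by norm_num⟩
  have := locallySmall_self.{0} T.C
  intro K E o φ M a b Sp X Z' Y c l z y i hK hE hM hc hl hz hy hi
  obtain ⟨D, hD⟩ := P251.M.MU_univ T.C S.toSpaceFunctor (P251.M.lineIso S.toSpaceFunctor)
  obtain ⟨D₅⟩ := P251.S.exists_kosData D.P ((5 : ℕ) : ℤ) 5 (D.vs 5)
  obtain ⟨D₄⟩ := P251.S.exists_kosData D.P ((5 : ℕ) : ℤ) 4 (D.vs 5)
  obtain ⟨F₅⟩ := Z.nonempty_locFunctor' D₅.K
  obtain ⟨F₄⟩ := Z.nonempty_locFunctor' D₄.K
  obtain ⟨m, f, hI, hII⟩ := P251.S.exists_witness_of_MUData FS D hM D₅ D₄ F₅ F₄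
  obtain ⟨_, oK, hK'⟩ := isMorava_of S K hK
  exact Z.noRetraction_of_witness hM f F₅ F₄ hI hII
    (fun W hW => Z.acyclic_of_kos hD (by norm_num) oK hK' D₅ hW) (fun W hW => hW)
    (fun W hW => kos_of_jw (k := 3) (by norm_num) hE hD D₄ hW)
    (fun W hW => Z.acyclic_kos_of_moore D₄ (by norm_num) hM hW) c ((isLoc_iff M c).mp hc).1 l
    ((isLoc_iff _ l).mp hl).1 z ((isLoc_iff _ z).mp hz).2 y i hi

end Vale.Agent.P251Z
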